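import Vale.Agent.P067.LampGrid

/-!
# Acyclic carriers of polynomial size, and the cone
-/

open Finset

namespace Vale.Agent.P067.LampGrid

open Chains

variable {m M : ℕ}

lemma acyc_Y : ∀ (D : Finset (Fin m)) (k n : ℕ) (b : Fin m → ZMod 2) (T : Finset (Fin m)),
    Disjoint T D → n ≤ k → n + 2 * (T.card + k) ≤ M + 1 → Acyc n (Y (M := M) k D b T) := by
  intro D
  induction D using Finset.induction_on with
  | empty =>
    intro k n b T _ _ h
    refine acyc_congr (fun σ => ?_) (acyc_U b T n (fun _ => none) (by simp) (by simp [free]; omega))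
    constructor
    · intro hu
      have hv := vary_of_agree_empty hu.1
      exact ⟨⟨hu.2.1, by simp [hv], by simp [hv]⟩, hu.1, hu.2.2.2⟩
    · intro hy
      exact ⟨hy.2.1, hy.1.1, by simp, hy.2.2⟩
  | @insert j D hj ih =>
    intro k n b T hdis hnk hM
    have hjT : j ∉ T := fun h => disjoint_left.1 hdis h (mem_insert_self j D)
    have hdis' : Disjoint T D := hdis.mono_right (subset_insert j D)
    set b0 := Function.update b j (0 : ZMod 2) with hb0
    set b1 := Function.update b j (1 : ZMod 2) with hb1
    set A : Finset (Pt m M) → Prop := fun σ => Y k (insert j D) b T σ ∧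
      ((∀ x ∈ σ, x.1 j = 0) ∨ (Avail σ j ∧ ((Vary σ).erase j).card < k)) with hA
    have dA : Down A := by
      intro σ τ h ha
      refine ⟨down_Y _ _ _ _ σ τ h ha.1, ?_⟩
      rcases ha.2 with h1 | ⟨h1, h2⟩
      · exact Or.inl fun x hx => h1 x (h hx)
      · exact Or.inr ⟨avail_mono h h1,
          (card_le_card (erase_subset_erase _ (vary_mono h))).trans_lt h2⟩
    have hagree : ∀ (a : ZMod 2) (σ : Finset (Pt m M)),
        Agree D (Function.update b j a) σ ↔ Agree (insert j D) b σ ∧ ∀ x ∈ σ, x.1 j = a := by
      intro a σ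
      constructor
      · intro h
        refine ⟨fun x hx l hl => ?_, fun x hx => by simpa using h x hx j hj⟩
        simp only [mem_insert, not_or] at hl
        simpa [Function.update_of_ne hl.1] using h x hx l hl.2
      · rintro ⟨h, h'⟩ x hx l hl
        by_cases hlj : l = j
        · subst hlj; simpa using h' x hx
        · simpa [Function.update_of_ne hlj] using h x hx l (by simp [hlj, hl])
    have hAacyc : Acyc n A := by
      refine acyc_retract dA (fun x => (Function.update x.1 j 0, x.2)) (fun x => x.1 j = 0) ?_ ?_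
      · intro x hx
        refine ⟨by simp, fun σ hσ hxσ => ?_⟩
        obtain ⟨hY, hor⟩ := hσ
        obtain ⟨hav, hlt⟩ := hor.resolve_left (fun h => hx (h x hxσ))
        set y : Pt m M := (Function.update x.1 j 0, x.2) with hy
        have hmem : ∀ l, Avail σ l → Avail (insert y σ) l := by
          rintro l ⟨r, hr⟩
          refine ⟨r, fun z hz => ?_⟩
          rcases mem_insert.1 hz with rfl | hz
          · exact hr x hxσ
          · exact hr z hz
        have hvsub : Vary (insert y σ) ⊆ insert j (Vary σ) := by
          intro l hl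
          by_cases hlj : l = j
          · simp [hlj]
          · refine mem_insert_of_mem ?_
            simp only [Vary, mem_filter, mem_univ, true_and] at hl ⊢
            obtain ⟨p, hp, q, hq, hpq⟩ := hl
            have hyx : y.1 l = x.1 l := by simp [hy, hlj]
            rcases mem_insert.1 hp with rfl | hp <;> rcases mem_insert.1 hq with rfl | hq
            · exact absurd rfl hpq
            · exact ⟨x, hxσ, q, hq, hyx ▸ hpq⟩
            · exact ⟨p, hp, x, hxσ, hyx ▸ hpq⟩
            · exact ⟨p, hp, q, hq, hpq⟩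
        have hverase : (Vary (insert y σ)).erase j ⊆ (Vary σ).erase j := by
          intro l hl
          obtain ⟨h1, h2⟩ := mem_erase.1 hl
          exact mem_erase.2 ⟨h1, (mem_insert.1 (hvsub h2)).resolve_left h1⟩
        have hcard : (Vary (insert y σ)).card ≤ k := by
          have h1 := card_le_card hverase
          have h2 := pred_card_le_card_erase (s := Vary (insert y σ)) (a := j)
          omega
        refine ⟨⟨⟨?_, hcard, fun l hl => ?_⟩, fun z hz l hl => ?_, fun t ht => hmem t (hY.2.2 t ht)⟩,
          Or.inr ⟨hmem j hav, (card_le_card hverase).trans_lt hlt⟩⟩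
        · intro p hp q hq r
          rcases mem_insert.1 hp with rfl | hp <;> rcases mem_insert.1 hq with rfl | hq
          · omega
          · exact hY.1.1 x hxσ q hq r
          · exact hY.1.1 p hp x hxσ r
          · exact hY.1.1 p hp q hq r
        · rcases mem_insert.1 (hvsub hl) with rfl | hl
          · exact hmem _ hav
          · exact hmem l (hY.1.2.2 l hl)
        · rcases mem_insert.1 hz with rfl | hz
          · have hlj : l ≠ j := fun h => hl (h ▸ mem_insert_self j D)
            simpa [hy, hlj] using hY.2.1 x hxσ l hl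
          · exact hY.2.1 z hz l hl
      · refine acyc_congr (fun σ => ?_) (ih k n b0 T hdis' hnk hM)
        simp only [hA, Y, hb0, hagree]
        tauto
    refine acyc_congr (fun σ => ?_) (acyc_union dA (down_Y k D b1 T) hAacyc
      (ih k n b1 T hdis' hnk hM) (fun n' hn' => ?_))
    · constructor
      · rintro (h | h)
        · exact h.1
        · exact ⟨h.1, ((hagree 1 σ).1 h.2.1).1, h.2.2⟩
      · intro h
        by_cases h0 : ∀ x ∈ σ, x.1 j = 0
        · exact Or.inl ⟨h, Or.inl h0⟩
        by_cases h1 : ∀ x ∈ σ, x.1 j = 1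
        · exact Or.inr ⟨h.1, (hagree 1 σ).2 ⟨h.2.1, h1⟩, h.2.2⟩
        · push Not at h0 h1
          obtain ⟨x, hx, hx0⟩ := h0
          obtain ⟨y, hy, hy1⟩ := h1
          have hjv : j ∈ Vary σ := by
            simp only [Vary, mem_filter, mem_univ, true_and]
            refine ⟨x, hx, y, hy, ?_⟩
            intro he
            rw [← he] at hy1
            revert hx0 hy1
            generalize x.1 j = a
            revert a
            decide
          refine Or.inl ⟨h, Or.inr ⟨h.1.2.2 j hjv, ?_⟩⟩
          have := h.1.2.1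
          rw [card_erase_of_mem hjv]
          have := card_pos.2 ⟨j, hjv⟩
          omega
    · obtain ⟨k', rfl⟩ : ∃ k', k = k' + 1 := ⟨k - 1, by omega⟩
      refine acyc_congr (fun σ => ?_) (ih k' n' b1 (insert j T) ?_ (by omega) ?_)
      · constructor
        · intro h
          obtain ⟨h1, h2, h3⟩ := h
          have hb := (hagree 1 σ).1 h2
          refine ⟨⟨⟨⟨h1.1, by have := h1.2.1; omega, h1.2.2⟩, hb.1,
            fun t ht => h3 t (mem_insert_of_mem ht)⟩,
            Or.inr ⟨h3 j (mem_insert_self j T), ?_⟩⟩, ⟨h1.1, by have := h1.2.1; omega, h1.2.2⟩,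
            h2, fun t ht => h3 t (mem_insert_of_mem ht)⟩
          exact (card_le_card (erase_subset _ _)).trans_lt (by have := h1.2.1; omega)
        · rintro ⟨⟨hYA, hor⟩, hYB⟩
          have hone := ((hagree 1 σ).1 hYB.2.1).2
          have hjv : j ∉ Vary σ := by
            simp only [Vary, mem_filter, mem_univ, true_and, not_exists, not_and, not_not]
            intro x hx y hy
            rw [hone x hx, hone y hy]
          have key : Avail σ j ∧ (Vary σ).card ≤ k' := by
            rcases hor with h0 | ⟨h1, h2⟩
            · have he : σ = ∅ := by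
                rw [eq_empty_iff_forall_notMem]
                intro x hx
                have := (h0 x hx).symm.trans (hone x hx)
                exact absurd this (by decide)
              subst he
              exact ⟨avail_empty (by omega) j, by simp [Vary]⟩
            · rw [erase_eq_of_notMem hjv] at h2
              exact ⟨h1, by omega⟩
          refine ⟨⟨hYB.1.1, key.2, hYB.1.2.2⟩, hYB.2.1, fun t ht => ?_⟩
          rcases mem_insert.1 ht with rfl | ht
          · exact key.1
          · exact hYB.2.2 t ht
      · exact disjoint_insert_left.2 ⟨hj, hdis'⟩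
      · rw [card_insert_of_notMem hjT]
        omega

/-- The lamps below `J` switched off. -/
def trunc (b : Fin m → ZMod 2) (J : ℕ) : Fin m → ZMod 2 := fun l => if l.val < J then 0 else b l

/-- The set containing the lamp numbered `J`, if there is one. -/
def jset (J : ℕ) : Finset (Fin m) := univ.filter fun l => l.val = J

/-- The union of the faces met when the lamps are switched off one after another. -/
def Tube (d : ℕ) (D : Finset (Fin m)) (b : Fin m → ZMod 2) (J : ℕ)
    (σ : Finset (Pt m M)) : Prop :=
  Y d D b ∅ σ ∨ ∃ j < J, Y d (D ∪ jset j) (trunc b j) ∅ σ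

lemma down_Tube (d : ℕ) (D : Finset (Fin m)) (b : Fin m → ZMod 2) (J : ℕ) :
    Down (Tube (M := M) d D b J) := by
  intro σ τ h hT
  rcases hT with hT | ⟨j, hj, hT⟩
  · exact Or.inl (down_Y _ _ _ _ σ τ h hT)
  · exact Or.inr ⟨j, hj, down_Y _ _ _ _ σ τ h hT⟩

lemma mem_jset {J : ℕ} {l : Fin m} : l ∈ jset J ↔ l.val = J := by simp [jset]

lemma acyc_tube {d : ℕ} (hM : M = 3 * d) (D : Finset (Fin m)) (b : Fin m → ZMod 2) :
    ∀ (J n : ℕ), n ≤ d → Acyc n (Tube (M := M) d D b J) := by
  have hY : ∀ (D : Finset (Fin m)) (b : Fin m → ZMod 2) (n : ℕ), n ≤ d →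
      Acyc n (Y (M := M) d D b ∅) := fun D b n hn =>
    acyc_Y D d n b ∅ (disjoint_empty_left D) hn (by simp; omega)
  intro J
  induction J with
  | zero => exact fun n hn => acyc_congr (fun σ => by simp [Tube]) (hY D b n hn)
  | succ J ih =>
    intro n hn
    refine acyc_congr (fun σ => ?_) (acyc_union (down_Tube d D b J)
      (down_Y d (D ∪ jset J) (trunc b J) ∅) (ih n hn) (hY _ _ n hn)
      (fun n' hn' => acyc_congr (fun σ => ?_) (hY D (trunc b J) n' (by omega))))
    · constructor
      · rintro ((h | ⟨j, hj, h⟩) | h)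
        · exact Or.inl h
        · exact Or.inr ⟨j, by omega, h⟩
        · exact Or.inr ⟨J, by omega, h⟩
      · rintro (h | ⟨j, hj, h⟩)
        · exact Or.inl (Or.inl h)
        · rcases Nat.lt_succ_iff_lt_or_eq.1 hj with hj' | rfl
          · exact Or.inl (Or.inr ⟨j, hj', h⟩)
          · exact Or.inr h
    · constructor
      · intro h
        refine ⟨?_, h.1, fun x hx l hl => h.2.1 x hx l (fun hd => hl (mem_union_left _ hd)), h.2.2⟩
        cases J with
        | zero => exact Or.inl ⟨h.1, fun x hx l hl => by simpa [trunc] using h.2.1 x hx l hl, h.2.2⟩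
        | succ J' =>
          refine Or.inr ⟨J', by omega, h.1, fun x hx l hl => ?_, h.2.2⟩
          rw [mem_union, not_or, mem_jset] at hl
          rw [h.2.1 x hx l hl.1]
          simp only [trunc]
          split_ifs <;> first | rfl | omega
      · rintro ⟨hT, hB⟩
        refine ⟨hB.1, fun x hx l hl => ?_, hB.2.2⟩
        by_cases hlJ : l.val = J
        · simp only [trunc, hlJ, lt_irrefl, if_false]
          rcases hT with hT | ⟨j, hj, hT⟩
          · exact hT.2.1 x hx l hl
          · rw [hT.2.1 x hx l (by simp [mem_jset, hl]; omega), trunc, if_neg (by omega)]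
        · exact hB.2.1 x hx l (by simp [mem_jset, hl, hlJ])

/-- The points allowed in a tube. -/
def tubePts (D : Finset (Fin m)) (b : Fin m → ZMod 2) : Finset (Pt m M) :=
  (range (m + 1)).biUnion fun j =>
    (Fintype.piFinset fun l => if l ∈ D ∪ jset j then univ else {trunc b j l}) ×ˢ univ

lemma tube_subset {d J : ℕ} (hJ : J ≤ m) {D : Finset (Fin m)} {b : Fin m → ZMod 2}
    {σ : Finset (Pt m M)} (h : Tube d D b J σ) : σ ⊆ tubePts D b := by
  intro x hx
  simp only [tubePts, mem_biUnion, mem_range, mem_product, Fintype.mem_piFinset, mem_univ, and_true]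
  rcases h with h | ⟨j, hj, h⟩
  · refine ⟨0, by omega, fun l => ?_⟩
    split_ifs with hl
    · exact mem_univ _
    · simpa [trunc] using h.2.1 x hx l (fun hd => hl (mem_union_left _ hd))
  · refine ⟨j, by omega, fun l => ?_⟩
    split_ifs with hl
    · exact mem_univ _
    · simpa using h.2.1 x hx l hl

lemma card_tubePts {d : ℕ} {D : Finset (Fin m)} (b : Fin m → ZMod 2) (hD : D.card ≤ d) :
    (tubePts (M := M) D b).card ≤ (m + 1) * (2 ^ (d + 1) * (3 * m + 2) ^ M) := by
  refine (card_biUnion_le_card_mul _ _ (2 ^ (d + 1) * (3 * m + 2) ^ M) (fun j _ => ?_)).trans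
    (by simp)
  rw [card_product, Fintype.card_piFinset]
  refine Nat.mul_le_mul ?_ (by simp)
  calc ∏ l, (if l ∈ D ∪ jset j then (univ : Finset (ZMod 2)) else {trunc b j l}).card
      = ∏ l, (if l ∈ D ∪ jset j then 2 else 1) := by
        refine prod_congr rfl (fun l _ => ?_)
        split_ifs <;> simp
    _ = 2 ^ (D ∪ jset j).card := by
        rw [prod_ite_mem, univ_inter, prod_const]
    _ ≤ 2 ^ (d + 1) := by
        refine Nat.pow_le_pow_right (by norm_num) ((card_union_le _ _).trans ?_)
        have : (jset (m := m) j).card ≤ 1 := card_le_one.2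
          (fun a ha c hc => Fin.ext ((mem_jset.1 ha).trans (mem_jset.1 hc).symm))
        omega

/-- The origin. -/
def origin : Pt m M := (0, fun _ => 0)

/-- The lamps of a member of `σ`. -/
noncomputable def baseOf (σ : Finset (Pt m M)) : Fin m → ZMod 2 :=
  if h : σ.Nonempty then h.choose.1 else 0

/-- The carrier of a face. -/
noncomputable def Car (d : ℕ) (σ τ : Finset (Pt m M)) : Prop :=
  if σ = ∅ then τ ⊆ {origin} else Tube d (Vary σ) (baseOf σ) m τ

/-- The points allowed in a carrier. -/
noncomputable def carPts (σ : Finset (Pt m M)) : Finset (Pt m M) :=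
  if σ = ∅ then {origin} else tubePts (Vary σ) (baseOf σ)

lemma agree_base {σ : Finset (Pt m M)} {x : Pt m M} (hx : x ∈ σ) {l : Fin m}
    (hl : l ∉ Vary σ) : x.1 l = baseOf σ l := by
  have hne : σ.Nonempty := ⟨x, hx⟩
  simp only [baseOf, hne, dif_pos]
  by_contra h
  exact hl (by
    simp only [Vary, mem_filter, mem_univ, true_and]
    exact ⟨x, hx, _, hne.choose_spec, h⟩)

lemma face_singleton (d : ℕ) (x : Pt m M) : Face d ({x} : Finset (Pt m M)) := by
  have hv : Vary ({x} : Finset (Pt m M)) = ∅ := by simp [Vary]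
  exact ⟨by simp [Near], by simp [hv], by simp [hv]⟩

lemma origin_mem_tube (d : ℕ) (D : Finset (Fin m)) (b : Fin m → ZMod 2)
    (τ : Finset (Pt m M)) (h : τ ⊆ {origin}) : Tube d D b m τ := by
  refine down_Tube d D b m {origin} τ h ?_
  have hf := face_singleton d (origin : Pt m M)
  rcases Nat.eq_zero_or_pos m with hm | hm
  · exact Or.inl ⟨hf, fun x _ l _ => absurd l.isLt (by omega), by simp⟩
  · refine Or.inr ⟨m - 1, by omega, hf, fun x hx l hl => ?_, by simp⟩
    rw [mem_singleton.1 hx]
    rw [mem_union, not_or, mem_jset] at hl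
    have := l.isLt
    simp [origin, trunc, show l.val < m - 1 by omega]

lemma car_mono {d : ℕ} {σ' σ τ : Finset (Pt m M)} (hsub : σ' ⊆ σ) (h : Car d σ' τ) :
    Car d σ τ := by
  by_cases hσ : σ = ∅
  · have : σ' = ∅ := subset_empty.1 (hσ ▸ hsub)
    simpa [Car, hσ, this] using h
  by_cases hσ' : σ' = ∅
  · simp only [Car, hσ', if_true] at h
    simp only [Car, hσ, if_false]
    exact origin_mem_tube _ _ _ _ h
  simp only [Car, hσ, hσ', if_false] at h ⊢
  have hb : ∀ l ∉ Vary σ, baseOf σ' l = baseOf σ l := by
    intro l hl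
    obtain ⟨x, hx⟩ := nonempty_iff_ne_empty.2 hσ'
    rw [← agree_base hx (fun h' => hl (vary_mono hsub h')), agree_base (hsub hx) hl]
  rcases h with h | ⟨j, hj, h⟩
  · refine Or.inl ⟨h.1, fun x hx l hl => ?_, h.2.2⟩
    rw [h.2.1 x hx l (fun h' => hl (vary_mono hsub h')), hb l hl]
  · refine Or.inr ⟨j, hj, h.1, fun x hx l hl => ?_, h.2.2⟩
    rw [mem_union, not_or] at hl
    rw [h.2.1 x hx l (by simp only [mem_union, not_or]; exact ⟨fun h' => hl.1 (vary_mono hsub h'), hl.2⟩)]
    simp [trunc, hb l hl.1]

lemma car_self {d : ℕ} {σ : Finset (Pt m M)} (hf : Face d σ) : Car d σ σ := by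
  by_cases hσ : σ = ∅
  · simp [Car, hσ]
  simp only [Car, hσ, if_false]
  exact Or.inl ⟨hf, fun x hx l hl => agree_base hx hl, by simp⟩

lemma car_face {d : ℕ} {σ τ : Finset (Pt m M)} (h : Car d σ τ) : Face d τ := by
  by_cases hσ : σ = ∅
  · simp only [Car, hσ, if_true] at h
    exact face_mono h (face_singleton d origin)
  simp only [Car, hσ, if_false] at h
  rcases h with h | ⟨_, _, h⟩ <;> exact h.1

lemma car_subset {d : ℕ} {σ τ : Finset (Pt m M)} (h : Car d σ τ) : τ ⊆ carPts σ := by
  by_cases hσ : σ = ∅
  · simpa [Car, carPts, hσ] using h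
  simp only [Car, carPts, hσ, if_false] at h ⊢
  exact tube_subset le_rfl h

lemma card_carPts {d : ℕ} {σ : Finset (Pt m M)} (hf : Face d σ) :
    (carPts σ).card ≤ (m + 1) * (2 ^ (d + 1) * (3 * m + 2) ^ M) := by
  by_cases hσ : σ = ∅
  · simp only [carPts, hσ, if_true, card_singleton]
    exact Nat.one_le_iff_ne_zero.2 (by positivity)
  simp only [carPts, hσ, if_false]
  exact card_tubePts _ hf.2.1

/-- The cone: carried chains `P σ` with `bd (P σ) + Σ P (σ - x) = σ`. -/
theorem exists_cone {d : ℕ} (hM : M = 3 * d) :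
    ∃ P : Finset (Pt m M) → Chain (Pt m M), ∀ σ, σ.card ≤ d → Face d σ →
      Carried (σ.card + 1) (Car d σ) (P σ) ∧
        bd (P σ) + ∑ x ∈ σ, P (σ.erase x) = single σ := by
  classical
  suffices H : ∀ n, n ≤ d + 1 → ∃ P : Finset (Pt m M) → Chain (Pt m M),
      ∀ σ, σ.card < n → Face d σ → Carried (σ.card + 1) (Car d σ) (P σ) ∧
        bd (P σ) + ∑ x ∈ σ, P (σ.erase x) = single σ by
    obtain ⟨P, hP⟩ := H (d + 1) le_rfl
    exact ⟨P, fun σ h => hP σ (by omega)⟩
  intro n
  induction n with
  | zero => exact fun _ => ⟨fun _ => 0, fun σ h => absurd h (by omega)⟩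
  | succ n ih =>
    intro hn
    obtain ⟨P, hP⟩ := ih (by omega)
    have hfill : ∀ σ : Finset (Pt m M), σ.card = n → Face d σ → ∃ w,
        Carried (n + 1) (Car d σ) w ∧ bd w = single σ + ∑ x ∈ σ, P (σ.erase x) := by
      intro σ hc hf
      have hlt : ∀ x ∈ σ, (σ.erase x).card < n := fun x hx => by
        rw [card_erase_of_mem hx]
        have := card_pos.2 ⟨x, hx⟩
        omega
      have hac : Acyc n (Car d σ) := by
        by_cases hσ : σ = ∅
        · exact acyc_congr (fun τ => by simp [Car, hσ]) (acyc_point origin)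
        · exact acyc_congr (fun τ => by simp [Car, hσ])
            (acyc_tube hM (Vary σ) (baseOf σ) m n (by omega))
      refine hac _ ((carried_single hc (car_self hf)).add (Carried.sum _ _ fun x hx => ?_)) ?_
      · have h1 := (hP _ (hlt x hx) (face_mono (erase_subset x σ) hf)).1
        have h2 : (σ.erase x).card + 1 = n := by
          rw [card_erase_of_mem hx]
          have := card_pos.2 ⟨x, hx⟩
          omega
        rw [h2] at h1
        exact h1.mono fun τ => car_mono (erase_subset x σ)
      · have h2 : ∀ x ∈ σ, bd (P (σ.erase x))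
            = single (σ.erase x) + ∑ y ∈ σ.erase x, P ((σ.erase x).erase y) := by
          intro x hx
          rw [← (hP _ (hlt x hx) (face_mono (erase_subset x σ) hf)).2]
          funext τ
          simp only [Pi.add_apply]
          rw [add_assoc, CharTwo.add_self_eq_zero, add_zero]
        rw [bd_add, bd_single, bd_sum, sum_congr rfl h2, sum_add_distrib, ← add_assoc]
        funext τ
        simp only [Pi.add_apply, Finset.sum_apply, CharTwo.add_self_eq_zero, zero_add,
          Pi.zero_apply]
        exact sum_sum_cancel σ (fun x y => by rw [Finset.erase_right_comm])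
    choose! w hw using hfill
    refine ⟨fun σ => if σ.card = n then w σ else P σ, fun σ hc hf => ?_⟩
    have hsum : ∀ (Q : Finset (Pt m M) → Chain (Pt m M)),
        (∀ τ, τ.card < n → Q τ = P τ) → σ.card ≤ n →
        ∑ x ∈ σ, Q (σ.erase x) = ∑ x ∈ σ, P (σ.erase x) := fun Q hQ hle =>
      sum_congr rfl (fun x hx => hQ _ (by
        rw [card_erase_of_mem hx]
        have := card_pos.2 ⟨x, hx⟩
        omega))
    rw [hsum (fun σ => if σ.card = n then w σ else P σ) (fun τ hτ => if_neg (by omega)) (by omega)]
    dsimp only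
    by_cases he : σ.card = n
    · simp only [he, if_true]
      obtain ⟨h1, h2⟩ := hw σ he hf
      refine ⟨h1, ?_⟩
      rw [h2, add_assoc]
      funext τ
      simp only [Pi.add_apply, Pi.zero_apply, CharTwo.add_self_eq_zero, add_zero]
    · simp only [he, if_false]
      exact hP σ (by omega) hf

end Vale.Agent.P067.LampGrid
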