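import Mathlib

/-!
# Chains mod 2 on the finite sets of a finite type, and acyclicity lemmas
-/

open Finset

namespace Vale.Agent.P067.Chains

set_option linter.unusedSectionVars false

variable {V : Type} [Fintype V] [DecidableEq V]

abbrev Chain (V : Type) := Finset V → ZMod 2

/-- The boundary of a chain, the empty set included (reduced chains). -/
def bd (w : Chain V) : Chain V := fun σ => ∑ x ∈ univ \ σ, w (insert x σ)

/-- The chain consisting of one set. -/
def single (σ : Finset V) : Chain V := fun τ => if τ = σ then 1 else 0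

/-- The coboundary of a cochain. -/
def cobd (f : Chain V) : Chain V := fun τ => ∑ x ∈ τ, f (τ.erase x)

/-- The pairing of a cochain and a chain. -/
def pair (f w : Chain V) : ZMod 2 := ∑ σ, f σ * w σ

lemma sum_sum_cancel {G : V → V → ZMod 2} (s : Finset V)
    (hG : ∀ x y, G x y = G y x) :
    ∑ x ∈ s, ∑ y ∈ s.erase x, G x y = 0 := by
  induction s using Finset.induction_on with
  | empty => simp
  | @insert a s ha ih =>
    rw [sum_insert ha, erase_insert ha]
    have h : ∀ x ∈ s, ∑ y ∈ (insert a s).erase x, G x y = G a x + ∑ y ∈ s.erase x, G x y := by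
      intro x hx
      have hax : a ≠ x := fun h => ha (h ▸ hx)
      rw [erase_insert_of_ne hax, sum_insert (fun h => ha (mem_of_mem_erase h)), hG x a]
    rw [sum_congr rfl h, sum_add_distrib, ih, add_zero]
    exact CharTwo.add_self_eq_zero _

lemma bd_add (u w : Chain V) : bd (u + w) = bd u + bd w := by
  funext σ
  simp [bd, sum_add_distrib]

lemma bd_sum {ι : Type} (s : Finset ι) (u : ι → Chain V) :
    bd (∑ i ∈ s, u i) = ∑ i ∈ s, bd (u i) := by
  funext σ
  simp only [bd, Finset.sum_apply]
  exact sum_comm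

lemma bd_bd (w : Chain V) : bd (bd w) = 0 := by
  funext σ
  simp only [bd, Pi.zero_apply]
  have h : ∀ x ∈ univ \ σ, ∑ y ∈ univ \ insert x σ, w (insert y (insert x σ))
      = ∑ y ∈ (univ \ σ).erase x, w (insert y (insert x σ)) := by
    intro x hx
    have : univ \ insert x σ = (univ \ σ).erase x := by
      ext y
      simp
    rw [this]
  rw [sum_congr rfl h]
  exact sum_sum_cancel _ (fun x y => by rw [Finset.insert_comm])

/-- The boundary of a single set is the sum of its facets. -/
lemma bd_single (σ : Finset V) : bd (single σ) = ∑ x ∈ σ, single (σ.erase x) := by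
  funext τ
  simp only [bd, single, Finset.sum_apply]
  rw [sum_boole, sum_boole]
  congr 1
  congr 1
  ext x
  simp only [mem_filter, mem_sdiff, mem_univ, true_and]
  constructor
  · rintro ⟨h1, rfl⟩
    exact ⟨mem_insert_self _ _, (erase_insert h1).symm⟩
  · rintro ⟨h1, rfl⟩
    exact ⟨notMem_erase _ _, insert_erase h1⟩

/-- The pairing with a boundary. -/
lemma pair_bd (f w : Chain V) : pair f (bd w) = pair (cobd f) w := by
  simp only [pair, bd, cobd, mul_sum, sum_mul]
  rw [sum_sigma' univ (fun σ : Finset V => univ \ σ), sum_sigma' univ (fun τ : Finset V => τ)]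
  refine sum_bij' (fun p _ => ⟨insert p.2 p.1, p.2⟩) (fun p _ => ⟨p.1.erase p.2, p.2⟩) ?_ ?_ ?_ ?_ ?_
  · intro p _
    simp
  · intro p _
    simp
  · rintro ⟨σ, x⟩ hp
    simp only [mem_sigma, mem_sdiff] at hp
    simp [erase_insert hp.2.2]
  · rintro ⟨σ, x⟩ hp
    simp only [mem_sigma] at hp
    simp [insert_erase hp.2]
  · rintro ⟨σ, x⟩ hp
    simp only [mem_sigma, mem_sdiff] at hp
    simp [erase_insert hp.2.2]

lemma pair_single (f : Chain V) (σ : Finset V) : pair f (single σ) = f σ := by
  simp [pair, single]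

lemma pair_add (f u w : Chain V) : pair f (u + w) = pair f u + pair f w := by
  simp [pair, mul_add, sum_add_distrib]

lemma pair_sum {ι : Type} (s : Finset ι) (f : Chain V) (u : ι → Chain V) :
    pair f (∑ i ∈ s, u i) = ∑ i ∈ s, pair f (u i) := by
  simp only [pair, Finset.sum_apply, mul_sum]
  exact sum_comm

/-- A chain is carried by `K` in the sets with `n` elements. -/
def Carried (n : ℕ) (K : Finset V → Prop) (z : Chain V) : Prop :=
  ∀ σ, z σ ≠ 0 → σ.card = n ∧ K σ

/-- Every cycle on sets with `n` elements bounds inside `K`. -/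
def Acyc (n : ℕ) (K : Finset V → Prop) : Prop :=
  ∀ z, Carried n K z → bd z = 0 → ∃ w, Carried (n + 1) K w ∧ bd w = z

/-- Closed under passing to subsets. -/
def Down (K : Finset V → Prop) : Prop := ∀ σ τ, τ ⊆ σ → K σ → K τ

lemma Carried.add {n : ℕ} {K : Finset V → Prop} {u w : Chain V} (hu : Carried n K u)
    (hw : Carried n K w) : Carried n K (u + w) := by
  intro σ h
  by_cases h1 : u σ = 0
  · exact hw σ (by simpa [h1] using h)
  · exact hu σ h1

lemma Carried.mono {n : ℕ} {K L : Finset V → Prop} {u : Chain V} (hu : Carried n K u)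
    (h : ∀ σ, K σ → L σ) : Carried n L u :=
  fun σ hs => ⟨(hu σ hs).1, h σ (hu σ hs).2⟩

lemma Carried.sum {ι : Type} {n : ℕ} {K : Finset V → Prop} (s : Finset ι) (u : ι → Chain V)
    (h : ∀ i ∈ s, Carried n K (u i)) : Carried n K (∑ i ∈ s, u i) := by
  intro σ hs
  rw [Finset.sum_apply] at hs
  obtain ⟨i, hi, hne⟩ := exists_ne_zero_of_sum_ne_zero hs
  exact h i hi σ hne

lemma Carried.bd {n : ℕ} {K : Finset V → Prop} (hK : Down K) {u : Chain V}
    (hu : Carried (n + 1) K u) : Carried n K (Chains.bd u) := by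
  intro σ hs
  obtain ⟨x, hx, hne⟩ := exists_ne_zero_of_sum_ne_zero hs
  simp only [mem_sdiff] at hx
  have := hu _ hne
  rw [card_insert_of_notMem hx.2] at this
  exact ⟨by omega, hK _ _ (subset_insert _ _) this.2⟩

lemma carried_single {n : ℕ} {K : Finset V → Prop} {σ : Finset V} (h1 : σ.card = n) (h2 : K σ) :
    Carried n K (single σ) := by
  intro τ h
  by_cases he : τ = σ
  · exact he ▸ ⟨h1, h2⟩
  · simp [single, he] at h

lemma acyc_congr {n : ℕ} {K L : Finset V → Prop} (h : ∀ σ, K σ ↔ L σ) (hK : Acyc n K) :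
    Acyc n L := by
  intro z hz hbd
  obtain ⟨w, hw, hw'⟩ := hK z (hz.mono fun σ => (h σ).2) hbd
  exact ⟨w, hw.mono fun σ => (h σ).1, hw'⟩

/-- The union lemma. -/
lemma acyc_union {n : ℕ} {A B : Finset V → Prop} (dA : Down A) (dB : Down B)
    (hA : Acyc n A) (hB : Acyc n B)
    (hI : ∀ m, n = m + 1 → Acyc m (fun σ => A σ ∧ B σ)) :
    Acyc n (fun σ => A σ ∨ B σ) := by
  classical
  intro z hz hbd
  set zA : Chain V := fun σ => if A σ then z σ else 0 with hzA
  set zB : Chain V := fun σ => if A σ then 0 else z σ with hzB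
  have hsum : z = zA + zB := by
    funext σ
    by_cases h : A σ <;> simp [hzA, hzB, h]
  have cA : Carried n A zA := by
    intro σ h
    by_cases hA' : A σ
    · exact ⟨(hz σ (by simpa [hzA, hA'] using h)).1, hA'⟩
    · simp [hzA, hA'] at h
  have cB : Carried n B zB := by
    intro σ h
    by_cases hA' : A σ
    · simp [hzB, hA'] at h
    · have := hz σ (by simpa [hzB, hA'] using h)
      exact ⟨this.1, this.2.resolve_left hA'⟩
  have heq : bd zA = bd zB := by
    have h0 := hbd
    rw [hsum, bd_add] at h0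
    funext σ
    have := congrFun h0 σ
    exact CharTwo.add_eq_zero.1 this
  have key : ∃ u, Carried n (fun σ => A σ ∧ B σ) u ∧ bd u = bd zA := by
    rcases Nat.eq_zero_or_pos n with hn | hn
    · refine ⟨0, fun σ h => absurd rfl h, ?_⟩
      funext σ
      simp only [bd, Pi.zero_apply, sum_const_zero]
      symm
      refine sum_eq_zero (fun x hx => ?_)
      by_contra hne
      have := (cA _ hne).1
      simp only [mem_sdiff] at hx
      rw [card_insert_of_notMem hx.2] at this
      omega
    · obtain ⟨m, rfl⟩ : ∃ m, n = m + 1 := ⟨n - 1, by omega⟩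
      refine hI m rfl (bd zA) ?_ (bd_bd _)
      intro σ h
      have h1 := cA.bd dA σ h
      have h2 := cB.bd dB σ (by rwa [← heq])
      exact ⟨h1.1, h1.2, h2.2⟩
  obtain ⟨u, hu, hu'⟩ := key
  obtain ⟨wA, hwA, hwA'⟩ := hA (zA + u) (cA.add (hu.mono fun σ h => h.1)) (by
    rw [bd_add, hu']
    funext σ
    exact CharTwo.add_self_eq_zero _)
  obtain ⟨wB, hwB, hwB'⟩ := hB (zB + u) (cB.add (hu.mono fun σ h => h.2)) (by
    rw [bd_add, hu', heq]
    funext σ
    exact CharTwo.add_self_eq_zero _)
  refine ⟨wA + wB, (hwA.mono fun σ h => Or.inl h).add (hwB.mono fun σ h => Or.inr h), ?_⟩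
  rw [bd_add, hwA', hwB', hsum]
  funext σ
  simp only [Pi.add_apply]
  have := CharTwo.add_self_eq_zero (u σ)
  linear_combination this

/-- Removing a dominated vertex. -/
lemma acyc_dominated {n : ℕ} {K : Finset V → Prop} {x y : V} (hxy : x ≠ y)
    (hdom : ∀ σ, K σ → x ∈ σ → K (insert y σ)) (dK : Down K)
    (h : Acyc n (fun σ => K σ ∧ x ∉ σ)) : Acyc n K := by
  intro z hz hbd
  set w : Chain V := fun τ => if x ∈ τ ∧ y ∈ τ then z (τ.erase y) else 0 with hw
  have cw : Carried (n + 1) K w := by
    intro τ hτ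
    by_cases h2 : x ∈ τ ∧ y ∈ τ
    · have h3 := hz (τ.erase y) (by simpa [hw, h2] using hτ)
      have h4 := hdom _ h3.2 (mem_erase.2 ⟨hxy, h2.1⟩)
      rw [insert_erase h2.2] at h4
      rw [card_erase_of_mem h2.2] at h3
      have := card_pos.2 ⟨y, h2.2⟩
      exact ⟨by omega, h4⟩
    · simp [hw, h2] at hτ
  have hkill : ∀ ρ, x ∈ ρ → bd w ρ = z ρ := by
    intro ρ hx
    by_cases hy : y ∈ ρ
    · have h0 : bd z (ρ.erase y) = 0 := by rw [hbd]; rfl
      have hsd : univ \ ρ.erase y = insert y (univ \ ρ) := by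
        ext s
        simp
        tauto
      simp only [bd, hsd] at h0
      rw [sum_insert (by simp [hy]), insert_erase hy] at h0
      rw [CharTwo.add_eq_zero.1 h0]
      refine sum_congr rfl (fun s hs => ?_)
      simp only [mem_sdiff] at hs
      have hsy : s ≠ y := fun h' => hs.2 (h' ▸ hy)
      simp [hw, hx, hy, erase_insert_of_ne hsy]
    · simp only [bd]
      rw [sum_eq_single y]
      · simp [hw, hx, erase_insert hy]
      · intro s _ hs
        simp [hw, hy, Ne.symm hs]
      · intro h'
        exact absurd (by simp [hy]) h'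
  have cz : Carried n (fun σ => K σ ∧ x ∉ σ) (z + bd w) := by
    intro σ hσ
    have h1 := (hz.add (cw.bd dK)) σ hσ
    refine ⟨h1.1, h1.2, fun hx => hσ ?_⟩
    simp [hkill σ hx, CharTwo.add_self_eq_zero]
  obtain ⟨u, hu, hu'⟩ := h (z + bd w) cz (by rw [bd_add, hbd, bd_bd, add_zero])
  refine ⟨u + w, (hu.mono fun σ h => h.1).add cw, ?_⟩
  rw [bd_add, hu']
  funext σ
  simp only [Pi.add_apply]
  have := CharTwo.add_self_eq_zero (bd w σ)
  linear_combination this

/-- A retraction by domination. -/
lemma acyc_retract {n : ℕ} {K : Finset V → Prop} (dK : Down K) (g : V → V) (S : V → Prop)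
    (hg : ∀ x, ¬ S x → S (g x) ∧ ∀ σ, K σ → x ∈ σ → K (insert (g x) σ))
    (h : Acyc n (fun σ => K σ ∧ ∀ x ∈ σ, S x)) : Acyc n K := by
  classical
  suffices H : ∀ R : Finset V, (∀ x ∈ R, ¬ S x) →
      Acyc n (fun σ => K σ ∧ ∀ x ∈ σ, x ∈ R ∨ S x) by
    refine acyc_congr (fun σ => ⟨fun h' => h'.1, fun h' => ⟨h', fun x _ => ?_⟩⟩)
      (H (univ.filter fun x => ¬ S x) (by simp))
    by_cases hS : S x <;> simp [hS]
  intro R
  induction R using Finset.induction_on with
  | empty => exact fun _ => acyc_congr (fun σ => by simp) h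
  | @insert a R ha ih =>
    intro hR
    have hga := hg a (hR a (mem_insert_self _ _))
    have hne : a ≠ g a := fun h' => hR a (mem_insert_self _ _) (h'.symm ▸ hga.1)
    refine acyc_dominated hne ?_ ?_ (acyc_congr ?_ (ih fun x hx => hR x (mem_insert_of_mem hx)))
    · intro σ hσ hx
      refine ⟨hga.2 σ hσ.1 hx, fun y hy => ?_⟩
      rcases mem_insert.1 hy with rfl | hy
      · exact Or.inr hga.1
      · exact hσ.2 y hy
    · intro σ τ hsub hσ
      exact ⟨dK σ τ hsub hσ.1, fun y hy => hσ.2 y (hsub hy)⟩
    · intro σ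
      constructor
      · rintro ⟨h1, h2⟩
        refine ⟨⟨h1, fun y hy => (h2 y hy).imp (fun h' => mem_insert_of_mem h') id⟩, fun hax => ?_⟩
        rcases h2 a hax with h' | h'
        · exact ha h'
        · exact hR a (mem_insert_self _ _) h'
      · rintro ⟨⟨h1, h2⟩, h3⟩
        refine ⟨h1, fun y hy => ?_⟩
        rcases h2 y hy with h' | h'
        · rcases mem_insert.1 h' with rfl | h'
          · exact absurd hy h3
          · exact Or.inl h'
        · exact Or.inr h'

/-- The simplex on one vertex. -/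
lemma acyc_point {n : ℕ} (p : V) : Acyc n (fun σ => σ ⊆ {p}) := by
  intro z hz hbd
  match n with
  | 0 =>
    refine ⟨fun σ => if σ = {p} then z ∅ else 0, ?_, ?_⟩
    · intro σ h
      by_cases he : σ = {p}
      · subst he; simp
      · simp [he] at h
    · funext σ
      by_cases he : σ = ∅
      · subst he
        simp [bd]
      · have h0 : z σ = 0 := by
          by_contra h
          exact he (card_eq_zero.1 (hz σ h).1)
        rw [h0]
        refine sum_eq_zero (fun x hx => ?_)
        simp only [mem_sdiff] at hx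
        refine if_neg (fun h' => ?_)
        have := congrArg Finset.card h'
        rw [card_insert_of_notMem hx.2] at this
        simp at this
        exact he this
  | 1 =>
    refine ⟨0, fun σ h => absurd rfl h, ?_⟩
    funext σ
    simp only [bd, Pi.zero_apply, sum_const_zero]
    by_contra h
    obtain ⟨h1, h2⟩ := hz σ (Ne.symm h)
    rcases subset_singleton_iff.1 h2 with rfl | rfl
    · simp at h1
    · have h0 : bd z ∅ = 0 := by rw [hbd]; rfl
      simp only [bd, sdiff_empty] at h0
      rw [sum_eq_single p] at h0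
      · exact h h0.symm
      · intro b _ hb
        by_contra hne
        exact hb (by simpa using (hz _ hne).2)
      · simp
  | m + 2 =>
    refine ⟨0, fun σ h => absurd rfl h, ?_⟩
    funext σ
    simp only [bd, Pi.zero_apply, sum_const_zero]
    by_contra h
    obtain ⟨h1, h2⟩ := hz σ (Ne.symm h)
    have := card_le_card h2
    simp at this
    omega

end Vale.Agent.P067.Chains
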