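import Mathlib.Data.ZMod.Basic
import Mathlib.Data.Finset.Powerset
import Mathlib.Data.Real.Basic
import Mathlib.Algebra.BigOperators.Field
import Mathlib.Tactic
import Mathlib.LinearAlgebra.Dimension.Finrank
import Mathlib.LinearAlgebra.Quotient.Basic

/-!
# Weighted F₂-cochains of finite pure simplicial complexes
-/

open Finset

namespace Vale.Agent.P067

variable {V : Type} [Fintype V] [DecidableEq V]

/-- A finite pure `d`-dimensional complex on the vertex set `V`, given by its `d`-faces; every
element of `V` is a vertex of the complex. -/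
structure PureComplex (V : Type) [Fintype V] [DecidableEq V] (d : ℕ) where
  facets : Finset (Finset V)
  card_facet : ∀ t ∈ facets, t.card = d + 1
  covered : ∀ v : V, ∃ t ∈ facets, v ∈ t

namespace PureComplex

variable {d : ℕ} (X : PureComplex V d)

/-- The faces with `i + 1` vertices. -/
def faces (i : ℕ) : Finset (Finset V) :=
  X.facets.biUnion fun t => t.powersetCard (i + 1)

/-- The cochains with values in `ZMod 2` on the faces with `i + 1` vertices. -/
abbrev Cochain (i : ℕ) : Type := {σ // σ ∈ X.faces i} → ZMod 2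

/-- The coboundary map. -/
def delta (i : ℕ) (f : X.Cochain i) : X.Cochain (i + 1) :=
  fun τ => ∑ σ, if σ.1 ⊆ τ.1 then f σ else 0

/-- The coboundaries: constants in degree zero, images of the coboundary map above. -/
def IsBoundary : (i : ℕ) → X.Cochain i → Prop
  | 0, f => ∃ c, ∀ σ, f σ = c
  | i + 1, f => ∃ g, X.delta i g = f

/-- The weight of a face with `i + 1` vertices. -/
noncomputable def weight (i : ℕ) (σ : {σ // σ ∈ X.faces i}) : ℝ :=
  ((X.facets.filter fun t => σ.1 ⊆ t).card : ℝ) /
    (((d + 1).choose (i + 1) : ℝ) * X.facets.card)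

/-- The weighted norm of a cochain. -/
noncomputable def norm (i : ℕ) (f : X.Cochain i) : ℝ :=
  ∑ σ, if f σ = 0 then 0 else X.weight i σ

/-- Every vertex lies in at most `D` facets. -/
def DegreeLE (D : ℕ) : Prop :=
  ∀ v : V, (X.facets.filter fun t => v ∈ t).card ≤ D

/-- Coboundary expansion: `‖δ f‖ ≥ ε · dist(f, B)`, written with a nearest coboundary. -/
def IsCoboundaryExpander (ε : ℝ) : Prop :=
  ∀ i < d, ∀ f : X.Cochain i,
    ∃ b, X.IsBoundary i b ∧ ε * X.norm i (f - b) ≤ X.norm (i + 1) (X.delta i f)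

/-- Cosystolic expansion. -/
def IsCosystolicExpander (ε : ℝ) : Prop :=
  (∀ i < d, ∀ f : X.Cochain i,
    ∃ z, X.delta i z = 0 ∧ ε * X.norm i (f - z) ≤ X.norm (i + 1) (X.delta i f)) ∧
  ∀ i < d, ∀ f : X.Cochain i, X.delta i f = 0 → ¬ X.IsBoundary i f → ε ≤ X.norm i f

/-- The dimension over `ZMod 2` of the top cohomology `C^d / B^d`, for `d = e + 1`. -/
noncomputable def topBetti {V : Type} [Fintype V] [DecidableEq V] {e : ℕ}
    (X : PureComplex V (e + 1)) : ℕ :=
  Module.finrank (ZMod 2)
    (X.Cochain (e + 1) ⧸ Submodule.span (ZMod 2) {f | X.IsBoundary (e + 1) f})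

end PureComplex

end Vale.Agent.P067
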