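import Vale.Agent.P067.Chains

/-!
# The lamp-grid complexes: local acyclicity

A point is a pair of a lamp configuration in `(ZMod 2)^m` and a position of `M` heads on a path.
Lamp `j` may vary inside a face only if some head sits in the box `[3j, 3j+1]` throughout the face.
-/

open Finset

namespace Vale.Agent.P067.LampGrid

open Chains

/-- A point: lamps and positions of the heads. -/
abbrev Pt (m M : ℕ) := (Fin m → ZMod 2) × (Fin M → Fin (3 * m + 2))

variable {m M : ℕ}

/-- Head `r` of `x` is in the box of lamp `j`. -/
def InBox (j : Fin m) (x : Pt m M) (r : Fin M) : Prop :=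
  3 * j.val ≤ (x.2 r).val ∧ (x.2 r).val ≤ 3 * j.val + 1

/-- Lamp `j` is available on `σ`. -/
def Avail (σ : Finset (Pt m M)) (j : Fin m) : Prop := ∃ r, ∀ x ∈ σ, InBox j x r

/-- Head positions differ by at most one. -/
def Near (σ : Finset (Pt m M)) : Prop :=
  ∀ x ∈ σ, ∀ y ∈ σ, ∀ r, (x.2 r).val ≤ (y.2 r).val + 1

/-- The lamps that are not constant on `σ`. -/
def Vary (σ : Finset (Pt m M)) : Finset (Fin m) :=
  univ.filter fun j => ∃ x ∈ σ, ∃ y ∈ σ, x.1 j ≠ y.1 j

/-- The faces in which at most `k` lamps vary. -/
def Face (k : ℕ) (σ : Finset (Pt m M)) : Prop :=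
  Near σ ∧ (Vary σ).card ≤ k ∧ ∀ j ∈ Vary σ, Avail σ j

/-- Lamps outside `D` agree with `b`. -/
def Agree (D : Finset (Fin m)) (b : Fin m → ZMod 2) (σ : Finset (Pt m M)) : Prop :=
  ∀ x ∈ σ, ∀ j ∉ D, x.1 j = b j

/-- Faces with free lamps `D`, prescribed lamps `b` elsewhere and available lamps `T`. -/
def Y (k : ℕ) (D : Finset (Fin m)) (b : Fin m → ZMod 2) (T : Finset (Fin m))
    (σ : Finset (Pt m M)) : Prop :=
  Face k σ ∧ Agree D b σ ∧ ∀ t ∈ T, Avail σ t

lemma avail_mono {σ τ : Finset (Pt m M)} (h : τ ⊆ σ) {j : Fin m} (hj : Avail σ j) : Avail τ j :=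
  let ⟨r, hr⟩ := hj; ⟨r, fun x hx => hr x (h hx)⟩

lemma near_mono {σ τ : Finset (Pt m M)} (h : τ ⊆ σ) (hn : Near σ) : Near τ :=
  fun x hx y hy r => hn x (h hx) y (h hy) r

lemma vary_mono {σ τ : Finset (Pt m M)} (h : τ ⊆ σ) : Vary τ ⊆ Vary σ := by
  intro j hj
  simp only [Vary, mem_filter, mem_univ, true_and] at hj ⊢
  obtain ⟨x, hx, y, hy, hne⟩ := hj
  exact ⟨x, h hx, y, h hy, hne⟩

lemma face_mono {k : ℕ} {σ τ : Finset (Pt m M)} (h : τ ⊆ σ) (hf : Face k σ) : Face k τ :=
  ⟨near_mono h hf.1, (card_le_card (vary_mono h)).trans hf.2.1,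
    fun j hj => avail_mono h (hf.2.2 j (vary_mono h hj))⟩

lemma agree_mono {D : Finset (Fin m)} {b : Fin m → ZMod 2} {σ τ : Finset (Pt m M)} (h : τ ⊆ σ)
    (ha : Agree D b σ) : Agree D b τ :=
  fun x hx => ha x (h hx)

lemma down_Y (k : ℕ) (D : Finset (Fin m)) (b : Fin m → ZMod 2) (T : Finset (Fin m)) :
    Down (Y (M := M) k D b T) :=
  fun _ _ h hY => ⟨face_mono h hY.1, agree_mono h hY.2.1,
    fun t ht => avail_mono h (hY.2.2 t ht)⟩

lemma vary_of_agree_empty {b : Fin m → ZMod 2} {σ : Finset (Pt m M)} (h : Agree ∅ b σ) :
    Vary σ = ∅ := by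
  rw [eq_empty_iff_forall_notMem]
  intro j hj
  simp only [Vary, mem_filter, mem_univ, true_and] at hj
  obtain ⟨x, hx, y, hy, hne⟩ := hj
  exact hne ((h x hx j (by simp)).trans (h y hy j (by simp)).symm)

lemma avail_empty (hM : 0 < M) (j : Fin m) : Avail (∅ : Finset (Pt m M)) j :=
  ⟨⟨0, hM⟩, by simp⟩

/-- A box with constant lamps. -/
def Box (b : Fin m → ZMod 2) (lo hi : Fin M → ℕ) (σ : Finset (Pt m M)) : Prop :=
  Agree ∅ b σ ∧ Near σ ∧ ∀ x ∈ σ, ∀ r, lo r ≤ (x.2 r).val ∧ (x.2 r).val ≤ hi r

lemma down_Box (b : Fin m → ZMod 2) (lo hi : Fin M → ℕ) : Down (Box b lo hi) :=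
  fun _ _ h hb => ⟨agree_mono h hb.1, near_mono h hb.2.1, fun x hx => hb.2.2 x (h hx)⟩

lemma acyc_box (n : ℕ) (b : Fin m → ZMod 2) : ∀ (s : ℕ) (lo hi : Fin M → ℕ),
    ∑ r, (hi r - lo r) = s → (∀ r, lo r ≤ hi r) → (∀ r, hi r ≤ 3 * m + 1) →
      Acyc n (Box b lo hi) := by
  intro s
  induction s with
  | zero =>
    intro lo hi hs hle hhi
    have heq : ∀ r, lo r = hi r := by
      intro r
      have := (sum_eq_zero_iff.1 hs) r (mem_univ r)
      have := hle r
      omega
    refine acyc_congr ?_ (acyc_point (b, fun r => ⟨lo r, by have := hle r; have := hhi r; omega⟩))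
    intro σ
    constructor
    · intro h
      refine ⟨fun x hx j _ => ?_, fun x hx y hy r => ?_, fun x hx r => ?_⟩
      · rw [mem_singleton.1 (h hx)]
      · rw [mem_singleton.1 (h hx), mem_singleton.1 (h hy)]
        omega
      · rw [mem_singleton.1 (h hx)]
        exact ⟨le_rfl, hle r⟩
    · intro h x hx
      rw [mem_singleton]
      refine Prod.ext (funext fun j => h.1 x hx j (by simp)) (funext fun r => Fin.ext ?_)
      have := h.2.2 x hx r
      have := heq r
      dsimp only
      omega
  | succ s ih =>
    intro lo hi hs hle hhi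
    obtain ⟨r₀, hr₀⟩ : ∃ r, lo r < hi r := by
      by_contra h
      push Not at h
      have : ∑ r, (hi r - lo r) = 0 := sum_eq_zero (fun r _ => by have := h r; omega)
      omega
    set hi' := Function.update hi r₀ (hi r₀ - 1) with hhi'
    set q : Fin (3 * m + 2) := ⟨hi r₀ - 1, by have := hhi r₀; omega⟩
    refine acyc_retract (down_Box b lo hi)
      (fun x => (x.1, Function.update x.2 r₀ q)) (fun x => (x.2 r₀).val ≤ hi r₀ - 1) ?_ ?_
    · intro x hx
      refine ⟨by simp [q], fun σ hσ hxσ => ?_⟩
      have hx1 := hσ.2.2 x hxσ r₀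
      have hxe : (x.2 r₀).val = hi r₀ := by omega
      have hnear : ∀ y ∈ σ, ∀ r, ((Function.update x.2 r₀ q) r).val ≤ (y.2 r).val + 1 ∧
          (y.2 r).val ≤ ((Function.update x.2 r₀ q) r).val + 1 := by
        intro y hy r
        by_cases hr : r = r₀
        · subst hr
          have := hσ.2.2 y hy r
          have := hσ.2.1 x hxσ y hy r
          rw [Function.update_self]
          simp only [q]
          omega
        · rw [Function.update_of_ne hr]
          exact ⟨hσ.2.1 x hxσ y hy r, hσ.2.1 y hy x hxσ r⟩
      refine ⟨fun y hy j hj => ?_, fun y hy z hz r => ?_, fun y hy r => ?_⟩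
      · rcases mem_insert.1 hy with rfl | hy
        · exact hσ.1 x hxσ j hj
        · exact hσ.1 y hy j hj
      · rcases mem_insert.1 hy with rfl | hy <;> rcases mem_insert.1 hz with rfl | hz
        · omega
        · exact (hnear z hz r).1
        · exact (hnear y hy r).2
        · exact hσ.2.1 y hy z hz r
      · rcases mem_insert.1 hy with rfl | hy
        · by_cases hr : r = r₀
          · subst hr
            simp only [Function.update_self, q]
            omega
          · simp only [Function.update_of_ne hr]
            exact hσ.2.2 x hxσ r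
        · exact hσ.2.2 y hy r
    · refine acyc_congr ?_ (ih lo hi' ?_ ?_ ?_)
      · intro σ
        constructor
        · intro h
          refine ⟨⟨h.1, h.2.1, fun x hx r => ⟨(h.2.2 x hx r).1, ?_⟩⟩, fun x hx => ?_⟩
          · have := (h.2.2 x hx r).2
            by_cases hr : r = r₀
            · subst hr
              simp [hi'] at this
              omega
            · simpa [hi', hr] using this
          · have := (h.2.2 x hx r₀).2
            simpa [hi'] using this
        · rintro ⟨h, h'⟩
          refine ⟨h.1, h.2.1, fun x hx r => ⟨(h.2.2 x hx r).1, ?_⟩⟩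
          by_cases hr : r = r₀
          · subst hr
            simpa [hi'] using h' x hx
          · simpa [hi', hr] using (h.2.2 x hx r).2
      · have e1 := add_sum_erase univ (fun r => hi r - lo r) (mem_univ r₀)
        have e2 := add_sum_erase univ (fun r => hi' r - lo r) (mem_univ r₀)
        have e3 : ∑ r ∈ univ.erase r₀, (hi' r - lo r) = ∑ r ∈ univ.erase r₀, (hi r - lo r) :=
          sum_congr rfl (fun r hr => by simp [hi', (mem_erase.1 hr).1])
        have e4 : hi' r₀ = hi r₀ - 1 := by simp [hi']
        simp only [e3, e4] at e2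
        omega
      · intro r
        by_cases hr : r = r₀
        · subst hr; simp [hi']; omega
        · simpa [hi', hr] using hle r
      · intro r
        by_cases hr : r = r₀
        · subst hr; simp [hi']; have := hhi r; omega
        · simpa [hi', hr] using hhi r

/-- Constant lamps, some heads assigned to boxes, and the lamps in `T` available. -/
def U (b : Fin m → ZMod 2) (g : Fin M → Option (Fin m)) (T : Finset (Fin m))
    (σ : Finset (Pt m M)) : Prop :=
  Agree ∅ b σ ∧ Near σ ∧ (∀ r j, g r = some j → ∀ x ∈ σ, InBox j x r) ∧ ∀ t ∈ T, Avail σ t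

/-- The heads not yet assigned. -/
def free (g : Fin M → Option (Fin m)) : Finset (Fin M) := univ.filter fun r => g r = none

lemma down_U (b : Fin m → ZMod 2) (g : Fin M → Option (Fin m)) (T : Finset (Fin m)) :
    Down (U b g T) :=
  fun _ _ h hu => ⟨agree_mono h hu.1, near_mono h hu.2.1,
    fun r j hr x hx => hu.2.2.1 r j hr x (h hx), fun t ht => avail_mono h (hu.2.2.2 t ht)⟩

lemma free_update {g : Fin M → Option (Fin m)} {r : Fin M} (t : Fin m) :
    free (Function.update g r (some t)) = (free g).erase r := by
  ext r'
  by_cases h : r' = r <;> simp [free, h]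

lemma acyc_U (b : Fin m → ZMod 2) : ∀ (T : Finset (Fin m)) (n : ℕ) (g : Fin M → Option (Fin m)),
    (∀ r, ∀ t ∈ T, g r ≠ some t) → n + 2 * T.card ≤ (free g).card + 1 → Acyc n (U b g T) := by
  intro T
  induction T using Finset.induction_on with
  | empty =>
    intro n g _ _
    refine acyc_congr ?_ (acyc_box n b _ (fun r => (g r).elim 0 fun j => 3 * j.val)
      (fun r => (g r).elim (3 * m + 1) fun j => 3 * j.val + 1) rfl ?_ ?_)
    · intro σ
      constructor
      · intro h
        refine ⟨h.1, h.2.1, fun r j hr x hx => ?_, by simp⟩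
        have := h.2.2 x hx r
        simpa [hr, InBox] using this
      · intro h
        refine ⟨h.1, h.2.1, fun x hx r => ?_⟩
        dsimp only
        cases hr : g r with
        | none => simp; omega
        | some j => simpa [InBox] using h.2.2.1 r j hr x hx
    · intro r
      cases g r <;> simp
    · intro r
      cases hr : g r with
      | none => simp
      | some j => simp
  | @insert t T ht ih =>
    intro n g hdis hcard
    rw [card_insert_of_notMem ht] at hcard
    set W : (Fin M → Option (Fin m)) → Finset (Fin M) → Finset (Pt m M) → Prop :=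
      fun g R σ => U b g T σ ∧ ∃ r ∈ R, ∀ x ∈ σ, InBox t x r with hW
    have hWacyc : ∀ (R : Finset (Fin M)) (n : ℕ) (g : Fin M → Option (Fin m)),
        (∀ r, ∀ u ∈ T, g r ≠ some u) → R ⊆ free g → R.Nonempty →
        n + 2 * T.card + 2 ≤ (free g).card + 1 → Acyc n (W g R) := by
      intro R
      induction R using Finset.induction_on with
      | empty => intro _ _ _ _ h; exact absurd h (by simp)
      | @insert r R hr ihR =>
        intro n g hdis hsub _ hcard
        have hrf : g r = none := by
          have := hsub (mem_insert_self r R)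
          simpa [free] using this
        set g' := Function.update g r (some t) with hg'
        have hfree : (free g').card = (free g).card - 1 := by
          rw [hg', free_update, card_erase_of_mem (hsub (mem_insert_self r R))]
        have hdis' : ∀ s, ∀ u ∈ T, g' s ≠ some u := by
          intro s u hu
          by_cases hs : s = r
          · subst hs
            simp only [hg', Function.update_self, ne_eq, Option.some.injEq]
            exact fun h => ht (h ▸ hu)
          · simpa [hg', Function.update_of_ne hs] using hdis s u hu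
        have hU' : Acyc n (U b g' T) := ih n g' hdis' (by omega)
        have hiff : ∀ σ, U b g' T σ ↔ U b g T σ ∧ ∀ x ∈ σ, InBox t x r := by
          intro σ
          constructor
          · intro h
            refine ⟨⟨h.1, h.2.1, fun s j hs => ?_, h.2.2.2⟩, h.2.2.1 r t (by simp [hg'])⟩
            have hne : s ≠ r := fun e => by rw [e, hrf] at hs; cases hs
            exact h.2.2.1 s j (by simpa [hg', Function.update_of_ne hne] using hs)
          · rintro ⟨h, h'⟩
            refine ⟨h.1, h.2.1, fun s j hs => ?_, h.2.2.2⟩
            by_cases hne : s = r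
            · subst hne
              simp only [hg', Function.update_self, Option.some.injEq] at hs
              exact hs ▸ h'
            · exact h.2.2.1 s j (by simpa [hg', Function.update_of_ne hne] using hs)
        rcases R.eq_empty_or_nonempty with hR | hR
        · refine acyc_congr (fun σ => ?_) hU'
          simp [hW, hR, hiff]
        · have hRf : R ⊆ free g := fun s hs => hsub (mem_insert_of_mem hs)
          have dW : Down (W g R) := fun σ τ h hw =>
            ⟨down_U b g T σ τ h hw.1, let ⟨s, hs, hs'⟩ := hw.2; ⟨s, hs, fun x hx => hs' x (h hx)⟩⟩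
          refine acyc_congr (fun σ => ?_) (acyc_union (down_U b g' T) dW hU'
            (ihR n g hdis hRf hR hcard) (fun n' hn' => ?_))
          · simp only [hW, hiff, exists_mem_insert]
            tauto
          · -- the intersection is again such a union, for the new assignment
            have hinter : Acyc n' (W g' R) :=
              ihR n' g' hdis' (fun s hs => by
                rw [hg', free_update]
                exact mem_erase.2 ⟨fun h => hr (h ▸ hs), hRf hs⟩) hR (by omega)
            refine acyc_congr (fun σ => ?_) hinter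
            simp only [hW, hiff]
            tauto
    have hne : (free g).Nonempty := card_pos.1 (by omega)
    refine acyc_congr (fun σ => ?_) (hWacyc (free g) n g (fun r u hu => hdis r u (mem_insert_of_mem hu)) Subset.rfl hne (by omega))
    constructor
    · rintro ⟨h, r, _, hr⟩
      refine ⟨h.1, h.2.1, h.2.2.1, fun u hu => ?_⟩
      rcases mem_insert.1 hu with rfl | hu
      · exact ⟨r, hr⟩
      · exact h.2.2.2 u hu
    · intro h
      refine ⟨⟨h.1, h.2.1, h.2.2.1, fun u hu => h.2.2.2 u (mem_insert_of_mem hu)⟩, ?_⟩
      obtain ⟨r, hr⟩ := h.2.2.2 t (mem_insert_self t T)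
      rcases σ.eq_empty_or_nonempty with rfl | ⟨x, hx⟩
      · obtain ⟨s, hs⟩ := hne
        exact ⟨s, hs, by simp⟩
      · refine ⟨r, ?_, hr⟩
        simp only [free, mem_filter, mem_univ, true_and]
        cases hgr : g r with
        | none => rfl
        | some j =>
          exfalso
          have h1 := h.2.2.1 r j hgr x hx
          have h2 := hr x hx
          unfold InBox at h1 h2
          have : j = t := Fin.ext (by omega)
          exact hdis r t (mem_insert_self t T) (this ▸ hgr)

end Vale.Agent.P067.LampGrid
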