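import Vale.Agent.P067.Complex
import Mathlib.LinearAlgebra.Basis.Basic
import Mathlib.LinearAlgebra.Dimension.Finite

/-!
# Bounded-degree expanders have many non-coboundary top faces
-/

open Finset

namespace Vale.Agent.P067

namespace PureComplex

variable {V : Type} [Fintype V] [DecidableEq V] {d : ℕ} (X : PureComplex V d)

/-- The coboundary as a linear map. -/
def deltaL (i : ℕ) : X.Cochain i →ₗ[ZMod 2] X.Cochain (i + 1) where
  toFun := X.delta i
  map_add' f g := by
    funext τ
    simp only [delta, Pi.add_apply, ← Finset.sum_add_distrib]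
    exact Finset.sum_congr rfl fun σ _ => by split_ifs <;> simp
  map_smul' c f := by
    funext τ
    simp only [delta, Pi.smul_apply, smul_eq_mul, Finset.mul_sum, RingHom.id_apply]
    exact Finset.sum_congr rfl fun σ _ => by split_ifs <;> simp

theorem deltaL_apply (i : ℕ) (f : X.Cochain i) : X.deltaL i f = X.delta i f := rfl

theorem mem_faces {i : ℕ} {σ : Finset V} :
    σ ∈ X.faces i ↔ ∃ t ∈ X.facets, σ ⊆ t ∧ σ.card = i + 1 := by
  simp [faces, Finset.mem_powersetCard]

theorem card_eq_of_mem_faces {i : ℕ} (σ : {σ // σ ∈ X.faces i}) : σ.1.card = i + 1 := by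
  obtain ⟨t, -, -, h⟩ := X.mem_faces.1 σ.2
  exact h

/-- The sum over faces contained in `τ` is the sum over the subsets of `τ` of that size. -/
theorem delta_eq_sum_powersetCard {i : ℕ} (f : Finset V → ZMod 2)
    (τ : {σ // σ ∈ X.faces (i + 1)}) :
    X.delta i (fun σ => f σ.1) τ = ∑ σ ∈ τ.1.powersetCard (i + 1), f σ := by
  have h : X.delta i (fun σ => f σ.1) τ =
      ∑ σ ∈ X.faces i, if σ ⊆ τ.1 then f σ else 0 :=
    (Finset.sum_coe_sort (X.faces i) fun σ => if σ ⊆ τ.1 then f σ else 0)
  rw [h, ← Finset.sum_filter]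
  refine Finset.sum_congr ?_ fun _ _ => rfl
  obtain ⟨t, ht, hsub, -⟩ := X.mem_faces.1 τ.2
  ext σ
  simp only [Finset.mem_filter, Finset.mem_powersetCard]
  constructor
  · rintro ⟨hσ, h⟩
    obtain ⟨_, -, -, hc⟩ := X.mem_faces.1 hσ
    exact ⟨h, hc⟩
  · rintro ⟨h, hc⟩
    exact ⟨X.mem_faces.2 ⟨t, ht, h.trans hsub, hc⟩, h⟩

theorem delta_delta (i : ℕ) (f : X.Cochain i) : X.delta (i + 1) (X.delta i f) = 0 := by
  classical
  let F : Finset V → ZMod 2 := fun σ => if h : σ ∈ X.faces i then f ⟨σ, h⟩ else 0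
  let G : Finset V → ZMod 2 := fun τ => ∑ σ ∈ τ.powersetCard (i + 1), F σ
  have hf : f = fun σ => F σ.1 := funext fun σ => by simp [F, σ.2]
  have hG : X.delta i f = fun τ => G τ.1 := by
    funext τ
    conv_lhs => rw [hf]
    exact X.delta_eq_sum_powersetCard F τ
  funext ρ
  rw [hG, X.delta_eq_sum_powersetCard G ρ, Pi.zero_apply]
  simp only [G]
  rw [Finset.sum_comm' (s' := fun σ => (ρ.1.powersetCard (i + 2)).filter (σ ⊆ ·))
    (t' := ρ.1.powersetCard (i + 1))]
  · refine Finset.sum_eq_zero fun σ hσ => ?_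
    rw [Finset.mem_powersetCard] at hσ
    rw [Finset.sum_const]
    have hρ : ρ.1.card = i + 3 := X.card_eq_of_mem_faces ρ
    have : ((ρ.1.powersetCard (i + 2)).filter (σ ⊆ ·)) =
        (ρ.1 \ σ).image (fun a => insert a σ) := by
      ext τ
      simp only [Finset.mem_filter, Finset.mem_powersetCard, Finset.mem_image, Finset.mem_sdiff]
      constructor
      · rintro ⟨⟨hτ, hc⟩, hs⟩
        have h1 : (τ \ σ).card = 1 := by rw [Finset.card_sdiff_of_subset hs]; omega
        obtain ⟨a, ha⟩ := Finset.card_eq_one.1 h1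
        have ha' : a ∈ τ ∧ a ∉ σ := by
          rw [← Finset.mem_sdiff, ha]
          simp
        refine ⟨a, ⟨hτ ha'.1, ha'.2⟩, Finset.eq_of_subset_of_card_le ?_ ?_⟩
        · exact Finset.insert_subset ha'.1 hs
        · rw [Finset.card_insert_of_notMem ha'.2]
          omega
      · rintro ⟨a, ⟨ha, ha'⟩, rfl⟩
        refine ⟨⟨Finset.insert_subset ha hσ.1, ?_⟩, Finset.subset_insert a σ⟩
        rw [Finset.card_insert_of_notMem ha']
        omega
    rw [this, Finset.card_image_of_injOn, Finset.card_sdiff_of_subset hσ.1, hρ, hσ.2,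
      show i + 3 - (i + 1) = 2 by omega]
    · generalize F σ = x
      revert x
      decide
    · intro a ha b hb hab
      simp only [Finset.coe_sdiff, Set.mem_sdiff, Finset.mem_coe] at ha hb
      have : a ∈ insert b σ := (show insert a σ = insert b σ from hab).le (Finset.mem_insert_self a σ)
      rcases Finset.mem_insert.1 this with h | h
      · exact h
      · exact absurd h ha.2
  · intro τ σ
    simp only [Finset.mem_powersetCard, Finset.mem_filter]
    constructor
    · rintro ⟨⟨h1, h2⟩, h3, h4⟩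
      exact ⟨⟨⟨h1, h2⟩, h3⟩, h3.trans h1, h4⟩
    · rintro ⟨⟨⟨h1, h2⟩, h3⟩, -, h4⟩
      exact ⟨⟨h1, h2⟩, h3, h4⟩

theorem delta_const (c : ZMod 2) : X.delta 0 (fun _ => c) = 0 := by
  funext τ
  rw [X.delta_eq_sum_powersetCard (fun _ => c) τ, Finset.sum_const, Finset.card_powersetCard,
    X.card_eq_of_mem_faces τ, Pi.zero_apply]
  revert c
  decide

theorem delta_boundary {i : ℕ} {f : X.Cochain i} (h : X.IsBoundary i f) : X.delta i f = 0 := by
  cases i with
  | zero =>
    obtain ⟨c, hc⟩ := h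
    rw [show f = fun _ => c from funext hc]
    exact X.delta_const c
  | succ i =>
    obtain ⟨g, rfl⟩ := h
    exact X.delta_delta i g

/-- The number of nonzero entries of a cochain. -/
def size (i : ℕ) (f : X.Cochain i) : ℕ := (Finset.univ.filter fun σ => f σ ≠ 0).card

theorem norm_eq (i : ℕ) (f : X.Cochain i) :
    X.norm i f = ∑ σ ∈ Finset.univ.filter (fun σ => f σ ≠ 0), X.weight i σ := by
  rw [norm, Finset.sum_filter]
  refine Finset.sum_congr rfl fun σ _ => ?_
  by_cases h : f σ = 0 <;> simp [h]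

theorem norm_nonneg (i : ℕ) (f : X.Cochain i) : 0 ≤ X.norm i f := by
  rw [X.norm_eq]
  exact Finset.sum_nonneg fun σ _ => by unfold weight; positivity

theorem facets_pos [Nonempty V] : 0 < X.facets.card := by
  obtain ⟨t, ht, -⟩ := X.covered (Classical.arbitrary V)
  exact Finset.card_pos.2 ⟨t, ht⟩

theorem card_vertices_le : Fintype.card V ≤ (d + 1) * X.facets.card := by
  have h : (Finset.univ : Finset V) ⊆ X.facets.biUnion id := by
    intro v _
    obtain ⟨t, ht, hv⟩ := X.covered v
    exact Finset.mem_biUnion.2 ⟨t, ht, hv⟩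
  refine (Finset.card_le_card h).trans (Finset.card_biUnion_le.trans ?_)
  rw [Finset.sum_congr rfl fun t ht => (show (id t).card = d + 1 from X.card_facet t ht)]
  simp [mul_comm]

theorem one_le_choose {i : ℕ} (σ : {σ // σ ∈ X.faces i}) : 1 ≤ (d + 1).choose (i + 1) := by
  obtain ⟨t, ht, hs, hc⟩ := X.mem_faces.1 σ.2
  have := Finset.card_le_card hs
  rw [hc, X.card_facet t ht] at this
  exact Nat.choose_pos this

theorem weight_le {D : ℕ} (hD : X.DegreeLE D) {i : ℕ} (σ : {σ // σ ∈ X.faces i}) :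
    X.weight i σ ≤ D / (X.facets.card : ℝ) := by
  obtain ⟨t, ht, hs, hc⟩ := X.mem_faces.1 σ.2
  obtain ⟨v, hv⟩ : σ.1.Nonempty := Finset.card_pos.1 (by omega)
  have : Nonempty V := ⟨v⟩
  have hpos : (0 : ℝ) < X.facets.card := by exact_mod_cast X.facets_pos
  have h1 : ((X.facets.filter fun t => σ.1 ⊆ t).card : ℝ) ≤ D := by
    exact_mod_cast (Finset.card_le_card (fun t ht => by
      simp only [Finset.mem_filter] at ht ⊢
      exact ⟨ht.1, ht.2 hv⟩)).trans (hD v)
  have h2 : (1 : ℝ) ≤ (d + 1).choose (i + 1) := by exact_mod_cast X.one_le_choose σ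
  rw [weight, div_le_div_iff₀ (by positivity) hpos]
  calc ((X.facets.filter fun t => σ.1 ⊆ t).card : ℝ) * X.facets.card
      ≤ (D : ℝ) * (1 * X.facets.card) := by rw [one_mul]; gcongr
    _ ≤ (D : ℝ) * (((d + 1).choose (i + 1) : ℝ) * X.facets.card) := by gcongr

theorem le_weight {i : ℕ} (σ : {σ // σ ∈ X.faces i}) :
    1 / (2 ^ (d + 1) * (X.facets.card : ℝ)) ≤ X.weight i σ := by
  obtain ⟨t, ht, hs, -⟩ := X.mem_faces.1 σ.2
  have hpos : (0 : ℝ) < X.facets.card := by exact_mod_cast Finset.card_pos.2 ⟨t, ht⟩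
  have h1 : (1 : ℝ) ≤ ((X.facets.filter fun t => σ.1 ⊆ t).card : ℝ) := by
    exact_mod_cast Finset.card_pos.2 ⟨t, Finset.mem_filter.2 ⟨ht, hs⟩⟩
  have h2 : ((d + 1).choose (i + 1) : ℝ) ≤ 2 ^ (d + 1) := by
    exact_mod_cast Nat.choose_le_two_pow (d + 1) (i + 1)
  have h3 : (0 : ℝ) < (d + 1).choose (i + 1) := by exact_mod_cast X.one_le_choose σ
  rw [weight]
  gcongr

theorem norm_le {D : ℕ} (hD : X.DegreeLE D) (i : ℕ) (f : X.Cochain i) :
    X.norm i f ≤ X.size i f * (D / (X.facets.card : ℝ)) := by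
  rw [X.norm_eq, size]
  exact (Finset.sum_le_card_nsmul _ _ _ fun σ _ => X.weight_le hD σ).trans_eq (nsmul_eq_mul _ _)

theorem le_norm (i : ℕ) (f : X.Cochain i) :
    (X.size i f : ℝ) * (1 / (2 ^ (d + 1) * (X.facets.card : ℝ))) ≤ X.norm i f := by
  rw [X.norm_eq, size]
  exact (nsmul_eq_mul _ _).symm.trans_le
    (Finset.card_nsmul_le_sum _ _ _ fun σ _ => X.le_weight σ)

theorem size_add_le (i : ℕ) (f g : X.Cochain i) :
    X.size i (f + g) ≤ X.size i f + X.size i g := by
  refine le_trans ?_ (Finset.card_union_le _ _)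
  refine Finset.card_le_card fun σ => ?_
  simp only [Finset.mem_filter, Finset.mem_univ, true_and, Finset.mem_union, Pi.add_apply]
  intro h
  by_contra hc
  push Not at hc
  rw [hc.1, hc.2, add_zero] at h
  exact h rfl

theorem size_sum_le {ι : Type} (i : ℕ) (s : Finset ι) (f : ι → X.Cochain i) :
    X.size i (∑ a ∈ s, f a) ≤ ∑ a ∈ s, X.size i (f a) := by
  classical
  induction s using Finset.induction_on with
  | empty => simp [size]
  | insert a s ha ih =>
    rw [Finset.sum_insert ha, Finset.sum_insert ha]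
    exact (X.size_add_le i _ _).trans (Nat.add_le_add_left ih _)

theorem size_single_le (i : ℕ) (σ : {σ // σ ∈ X.faces i}) :
    X.size i (Pi.single σ 1) ≤ 1 := by
  refine (Finset.card_le_card (t := {σ}) ?_).trans (Finset.card_singleton σ).le
  intro τ
  simp only [Finset.mem_filter, Finset.mem_univ, true_and, Finset.mem_singleton]
  intro h
  by_contra hne
  exact h (Pi.single_eq_of_ne hne _)

/-- The faces of one dimension higher containing a given face. -/
def upper (i : ℕ) (σ : {σ // σ ∈ X.faces i}) : Finset {τ // τ ∈ X.faces (i + 1)} :=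
  Finset.univ.filter fun τ => σ.1 ⊆ τ.1

theorem card_upper_le {D : ℕ} (hD : X.DegreeLE D) (i : ℕ) (σ : {σ // σ ∈ X.faces i}) :
    (X.upper i σ).card ≤ D * 2 ^ (d + 1) := by
  classical
  obtain ⟨v, hv⟩ : σ.1.Nonempty := Finset.card_pos.1 (by rw [X.card_eq_of_mem_faces σ]; omega)
  have h : (X.upper i σ).map (Function.Embedding.subtype _) ⊆
      (X.facets.filter fun t => v ∈ t).biUnion fun t => t.powerset := by
    intro τ hτ
    rw [Finset.mem_map] at hτ
    obtain ⟨⟨τ, hτm⟩, hτ', rfl⟩ := hτ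
    obtain ⟨t, ht, hs, -⟩ := X.mem_faces.1 hτm
    exact Finset.mem_biUnion.2 ⟨t, Finset.mem_filter.2 ⟨ht,
      hs ((Finset.mem_filter.1 hτ').2 hv)⟩, Finset.mem_powerset.2 hs⟩
  rw [← Finset.card_map (Function.Embedding.subtype _)]
  refine (Finset.card_le_card h).trans (Finset.card_biUnion_le.trans ?_)
  rw [Finset.sum_congr rfl (g := fun _ => 2 ^ (d + 1)) fun t ht => by
    rw [Finset.card_powerset, X.card_facet t (Finset.mem_filter.1 ht).1]]
  rw [Finset.sum_const, smul_eq_mul]
  exact Nat.mul_le_mul_right _ (hD v)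

theorem delta_single (i : ℕ) (σ : {σ // σ ∈ X.faces i}) :
    X.delta i (Pi.single σ 1) = ∑ τ ∈ X.upper i σ, Pi.single τ 1 := by
  funext τ
  rw [delta, Finset.sum_eq_single σ, Finset.sum_apply, Finset.sum_pi_single τ,
    Pi.single_eq_same]
  · simp [upper]
  · intro σ' _ hne
    simp [hne]
  · simp

theorem size_delta_single_le {D : ℕ} (hD : X.DegreeLE D) (i : ℕ) (σ : {σ // σ ∈ X.faces i}) :
    X.size (i + 1) (X.delta i (Pi.single σ 1)) ≤ D * 2 ^ (d + 1) := by
  rw [X.delta_single]
  refine (X.size_sum_le _ _ _).trans ((Finset.sum_le_card_nsmul _ _ 1 fun τ _ => ?_).trans ?_)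
  · exact X.size_single_le _ τ
  · simpa using X.card_upper_le hD i σ

theorem isCosystolic_of_coboundary {ε : ℝ} (hε : 0 < ε) (h : X.IsCoboundaryExpander ε) :
    X.IsCosystolicExpander ε := by
  refine ⟨fun i hi f => ?_, fun i hi f hf hnb => ?_⟩
  · obtain ⟨b, hb, hle⟩ := h i hi f
    exact ⟨b, X.delta_boundary hb, hle⟩
  · exfalso
    obtain ⟨b, hb, hle⟩ := h i hi f
    rw [hf] at hle
    have h0 : X.norm (i + 1) 0 = 0 := by simp [norm]
    rw [h0] at hle
    have hle' : X.norm i (f - b) ≤ 0 := by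
      by_contra hc
      exact absurd hle (not_le.2 (mul_pos hε (not_le.1 hc)))
    have hsz : X.size i (f - b) = 0 := by
      by_contra hc
      obtain ⟨σ, hσ⟩ := Finset.card_pos.1 (Nat.pos_of_ne_zero hc)
      rw [X.norm_eq] at hle'
      have hw : 0 < X.weight i σ := by
        refine lt_of_lt_of_le ?_ (X.le_weight σ)
        obtain ⟨t, ht, -, -⟩ := X.mem_faces.1 σ.2
        have : (0 : ℝ) < X.facets.card := by exact_mod_cast Finset.card_pos.2 ⟨t, ht⟩
        positivity
      have := Finset.single_le_sum (fun a _ => show 0 ≤ X.weight i a by unfold weight; positivity) hσ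
      linarith
    apply hnb
    have : f = b := funext fun σ => by
      by_contra hne
      exact (Finset.card_ne_zero_of_mem (s := Finset.univ.filter fun σ => (f - b) σ ≠ 0) (a := σ)
        (by simp [sub_ne_zero.2 hne])) hsz
    exact this ▸ hb

/-- Local fillings with the size bound `K`: a linear right inverse of the coboundary map on
its image. -/
def Fills (i : ℕ) (K : ℝ) (P : X.Cochain (i + 1) →ₗ[ZMod 2] X.Cochain i) : Prop :=
  (∀ τ, (X.size i (P (Pi.single τ 1)) : ℝ) ≤ K) ∧
    ∀ y : X.Cochain i, X.delta i (P (X.delta i y)) = X.delta i y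

theorem eq_sum_single {i : ℕ} (x : X.Cochain i) :
    x = ∑ σ, x σ • (Pi.single σ 1 : X.Cochain i) := by
  funext τ
  simp [Finset.sum_apply, Pi.single_apply]

theorem exists_linear {i j : ℕ} (h : {σ // σ ∈ X.faces i} → X.Cochain j) :
    ∃ P : X.Cochain i →ₗ[ZMod 2] X.Cochain j,
      (∀ σ, P (Pi.single σ 1) = h σ) ∧ ∀ x, P x = ∑ σ, x σ • h σ := by
  refine ⟨{ toFun := fun x => ∑ σ, x σ • h σ, map_add' := ?_, map_smul' := ?_ }, ?_, fun x => rfl⟩
  · intro x y
    simp [add_smul, Finset.sum_add_distrib]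
  · intro c x
    simp [Finset.smul_sum, smul_smul]
  · intro σ
    show ∑ τ, (Pi.single σ 1 : X.Cochain i) τ • h τ = h σ
    rw [Finset.sum_eq_single σ] <;> simp +contextual [Pi.single_apply]

/-- A coboundary of small size has a small filling. -/
theorem exists_small_filling {D : ℕ} {ε : ℝ} (hε : 0 < ε) (hD : X.DegreeLE D) [Nonempty V]
    (hX : X.IsCosystolicExpander ε) {i : ℕ} (hi : i < d) {g : X.Cochain (i + 1)}
    (hg : X.IsBoundary (i + 1) g) :
    ∃ h : X.Cochain i, X.delta i h = g ∧
      (X.size i h : ℝ) ≤ 2 ^ (d + 1) * D / ε * X.size (i + 1) g := by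
  obtain ⟨h₀, rfl⟩ := hg
  obtain ⟨z, hz, hle⟩ := hX.1 i hi h₀
  refine ⟨h₀ - z, ?_, ?_⟩
  · rw [← X.deltaL_apply, map_sub, X.deltaL_apply, X.deltaL_apply, hz, sub_zero]
  · have hpos : (0 : ℝ) < X.facets.card := by exact_mod_cast X.facets_pos
    have h1 := X.le_norm i (h₀ - z)
    have h2 := X.norm_le hD (i + 1) (X.delta i h₀)
    have h3 : ε * ((X.size i (h₀ - z) : ℝ) * (1 / (2 ^ (d + 1) * (X.facets.card : ℝ)))) ≤
        (X.size (i + 1) (X.delta i h₀) : ℝ) * (D / (X.facets.card : ℝ)) :=
      ((mul_le_mul_of_nonneg_left h1 hε.le).trans hle).trans h2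
    have h4 : ε * (X.size i (h₀ - z) : ℝ) ≤
        2 ^ (d + 1) * D * X.size (i + 1) (X.delta i h₀) := by
      field_simp at h3
      linarith
    rw [div_mul_eq_mul_div, le_div_iff₀ hε]
    linarith

/-- The image of the top coboundary map. -/
def topBoundaries (i : ℕ) : Submodule (ZMod 2) (X.Cochain (i + 1)) :=
  LinearMap.range (X.deltaL i)

/-- A linear section of the quotient by coboundaries with supports bounded by its dimension. -/
theorem exists_section (i : ℕ) :
    ∃ sec : (X.Cochain (i + 1) ⧸ X.topBoundaries i) →ₗ[ZMod 2] X.Cochain (i + 1),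
      (∀ y, Submodule.Quotient.mk (sec y) = y) ∧
        ∀ y, X.size (i + 1) (sec y) ≤
          Module.finrank (ZMod 2) (X.Cochain (i + 1) ⧸ X.topBoundaries i) := by
  classical
  let v : {σ // σ ∈ X.faces (i + 1)} → X.Cochain (i + 1) ⧸ X.topBoundaries i :=
    fun σ => Submodule.Quotient.mk (Pi.single σ 1)
  obtain ⟨b, hb, hspan, hli⟩ := exists_linearIndependent (ZMod 2) (Set.range v)
  have htop : Submodule.span (ZMod 2) b = ⊤ := by
    rw [hspan, eq_top_iff]
    intro y _
    obtain ⟨x, rfl⟩ := Submodule.Quotient.mk_surjective _ y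
    rw [X.eq_sum_single x, ← Submodule.mkQ_apply, map_sum]
    refine Submodule.sum_mem _ fun σ _ => ?_
    rw [map_smul]
    exact Submodule.smul_mem _ _ (Submodule.subset_span ⟨σ, rfl⟩)
  have : Fintype b := (Set.finite_range v).subset hb |>.fintype
  let B : Module.Basis b (ZMod 2) (X.Cochain (i + 1) ⧸ X.topBoundaries i) :=
    Module.Basis.mk hli (by rw [Subtype.range_coe, htop])
  choose pick hpick using fun q : b => hb q.2
  refine ⟨B.constr (ZMod 2) fun q => Pi.single (pick q) 1, fun y => ?_, fun y => ?_⟩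
  · have : (X.topBoundaries i).mkQ ∘ₗ (B.constr (ZMod 2) fun q => Pi.single (pick q) 1) =
        LinearMap.id := by
      refine B.ext fun q => ?_
      simp only [LinearMap.coe_comp, Function.comp_apply, Module.Basis.constr_basis,
        LinearMap.id_coe, id_eq, Submodule.mkQ_apply]
      rw [Module.Basis.mk_apply]
      exact hpick q
    exact DFunLike.congr_fun this y
  · rw [Module.finrank_eq_card_basis B, Module.Basis.constr_apply_fintype (ZMod 2)]
    refine (X.size_sum_le _ _ _).trans ((Finset.sum_le_card_nsmul _ _ 1 fun q _ => ?_).trans ?_)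
    · refine le_trans (Finset.card_le_card ?_) (X.size_single_le _ (pick q))
      intro τ
      simp only [Finset.mem_filter, Finset.mem_univ, true_and, Pi.smul_apply, smul_eq_mul]
      exact fun h hz => h (by rw [hz, mul_zero])
    · simp

/-- The filling constant in codimension `j + 1`, when `h` is the top Betti number. -/
noncomputable def fillConst (d D : ℕ) (ε : ℝ) (h : ℕ) : ℕ → ℝ
  | 0 => 2 ^ (d + 1) * D / ε * (1 + h)
  | j + 1 => 2 ^ (d + 1) * D / ε * (1 + D * 2 ^ (d + 1) * fillConst d D ε h j)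

theorem fillConst_nonneg (d D : ℕ) {ε : ℝ} (hε : 0 < ε) (h : ℕ) : ∀ j, 0 ≤ fillConst d D ε h j
  | 0 => by simp only [fillConst]; positivity
  | j + 1 => by
    have := fillConst_nonneg d D hε h j
    simp only [fillConst]
    positivity

theorem exists_fills {D : ℕ} {ε : ℝ} (hε : 0 < ε) (hD : X.DegreeLE D) [Nonempty V]
    (hX : X.IsCosystolicExpander ε) {e : ℕ} (he : e + 1 = d) (j : ℕ)
    (hN : ∀ m < j, (1 + D * 2 ^ (d + 1) * fillConst d D ε
      (Module.finrank (ZMod 2) (X.Cochain (e + 1) ⧸ X.topBoundaries e)) m) * D <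
        ε * X.facets.card) :
    ∀ i, i + j = e → ∃ P, X.Fills i (fillConst d D ε
      (Module.finrank (ZMod 2) (X.Cochain (e + 1) ⧸ X.topBoundaries e)) j) P := by
  classical
  generalize hh : Module.finrank (ZMod 2) (X.Cochain (e + 1) ⧸ X.topBoundaries e) = h at hN ⊢
  induction j with
  | zero =>
    intro i hi
    obtain rfl : i = e := by omega
    obtain ⟨sec, hsec, hsize⟩ := X.exists_section i
    let g : {σ // σ ∈ X.faces (i + 1)} → X.Cochain (i + 1) := fun τ =>
      Pi.single τ 1 - sec (Submodule.Quotient.mk (Pi.single τ 1))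
    have hg : ∀ τ, X.IsBoundary (i + 1) (g τ) := by
      intro τ
      have : g τ ∈ X.topBoundaries i := by
        rw [← Submodule.Quotient.mk_eq_zero, Submodule.Quotient.mk_sub, hsec, sub_self]
      obtain ⟨y, hy⟩ := this
      exact ⟨y, hy⟩
    choose f hf using fun τ => X.exists_small_filling hε hD hX (i := i) (by omega) (hg τ)
    obtain ⟨P, hP1, hP2⟩ := X.exists_linear (i := i + 1) (j := i) f
    refine ⟨P, fun τ => ?_, fun y => ?_⟩
    · rw [hP1]
      refine (hf τ).2.trans ?_
      simp only [fillConst]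
      refine mul_le_mul_of_nonneg_left ?_ (by positivity)
      have h1 : X.size (i + 1) (g τ) ≤ 1 + h := by
        simp only [g]
        rw [sub_eq_add_neg, show ∀ z : X.Cochain (i + 1), -z = z from
          fun z => funext fun a => CharTwo.neg_eq (z a)]
        exact (X.size_add_le _ _ _).trans (Nat.add_le_add (X.size_single_le _ τ)
          ((hsize _).trans hh.le))
      exact_mod_cast h1
    · rw [hP2, ← X.deltaL_apply, map_sum]
      have key : ∀ x : X.Cochain (i + 1), (∑ τ, X.deltaL i (x τ • f τ)) =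
          x - sec ((X.topBoundaries i).mkQ x) := by
        intro x
        conv_rhs => rw [X.eq_sum_single x, map_sum, map_sum, ← Finset.sum_sub_distrib]
        refine Finset.sum_congr rfl fun τ _ => ?_
        rw [map_smul, X.deltaL_apply, (hf τ).1, map_smul, map_smul, ← smul_sub]
        rfl
      rw [key, Submodule.mkQ_apply, (Submodule.Quotient.mk_eq_zero _).2
        (show X.delta i y ∈ X.topBoundaries i from ⟨y, rfl⟩), map_zero,
        sub_zero]
  | succ j ih =>
    intro i hi
    obtain ⟨Q, hQ1, hQ2⟩ := ih (fun m hm => hN m (Nat.lt_succ_of_lt hm)) (i + 1) (by omega)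
    let g : {σ // σ ∈ X.faces (i + 1)} → X.Cochain (i + 1) := fun σ =>
      Pi.single σ 1 + Q (X.delta (i + 1) (Pi.single σ 1))
    have hsize : ∀ σ, (X.size (i + 1) (g σ) : ℝ) ≤
        1 + D * 2 ^ (d + 1) * fillConst d D ε h j := by
      intro σ
      have h1 : (X.size (i + 1) (g σ) : ℝ) ≤ X.size (i + 1) (Pi.single σ 1) +
          X.size (i + 1) (Q (X.delta (i + 1) (Pi.single σ 1))) := by
        exact_mod_cast X.size_add_le _ _ _
      have h2 : (X.size (i + 1) (Pi.single σ 1) : ℝ) ≤ 1 := by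
        exact_mod_cast X.size_single_le _ σ
      have h3 : (X.size (i + 1) (Q (X.delta (i + 1) (Pi.single σ 1))) : ℝ) ≤
          ∑ τ ∈ X.upper (i + 1) σ, (X.size (i + 1) (Q (Pi.single τ 1)) : ℝ) := by
        rw [X.delta_single, map_sum]
        exact_mod_cast X.size_sum_le _ _ _
      have h4 := Finset.sum_le_card_nsmul (X.upper (i + 1) σ) _ _ fun τ _ => hQ1 τ
      rw [nsmul_eq_mul] at h4
      have h5 : ((X.upper (i + 1) σ).card : ℝ) ≤ D * 2 ^ (d + 1) := by
        exact_mod_cast X.card_upper_le hD (i + 1) σ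
      have h6 := mul_le_mul_of_nonneg_right h5 (fillConst_nonneg d D hε h j)
      linarith
    have hgood : ∀ σ, X.IsBoundary (i + 1) (g σ) := by
      intro σ
      have hcl : X.delta (i + 1) (g σ) = 0 := by
        rw [← X.deltaL_apply, map_add, X.deltaL_apply, X.deltaL_apply, hQ2]
        funext τ
        exact CharTwo.add_self_eq_zero _
      by_contra hnb
      have hle := hX.2 (i + 1) (by omega) _ hcl hnb
      have hpos : (0 : ℝ) < X.facets.card := by exact_mod_cast X.facets_pos
      have h1 := (hle.trans (X.norm_le hD _ _)).trans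
        (mul_le_mul_of_nonneg_right (hsize σ) (by positivity))
      rw [← mul_div_assoc, le_div_iff₀ hpos] at h1
      exact absurd h1 (not_le.2 (hN j (Nat.lt_succ_self j)))
    choose f hf using fun σ => X.exists_small_filling hε hD hX (i := i) (by omega) (hgood σ)
    obtain ⟨P, hP1, hP2⟩ := X.exists_linear (i := i + 1) (j := i) f
    refine ⟨P, fun σ => ?_, fun y => ?_⟩
    · rw [hP1]
      refine (hf σ).2.trans ?_
      simp only [fillConst]
      exact mul_le_mul_of_nonneg_left (hsize σ) (by positivity)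
    · have key : ∀ x : X.Cochain (i + 1), X.delta i (P x) = x + Q (X.delta (i + 1) x) := by
        intro x
        rw [hP2, ← X.deltaL_apply, map_sum]
        conv_rhs => rw [X.eq_sum_single x, ← X.deltaL_apply, map_sum, map_sum,
          ← Finset.sum_add_distrib]
        refine Finset.sum_congr rfl fun σ _ => ?_
        rw [map_smul, map_smul, map_smul, X.deltaL_apply, X.deltaL_apply, (hf σ).1]
        simp only [g, smul_add]
      rw [key, X.delta_delta, map_zero, add_zero]

/-- The top Betti number is at least linear. -/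
theorem not_all_small {D : ℕ} {ε : ℝ} (hε : 0 < ε) {e : ℕ} (he : e + 1 = d) (hD : X.DegreeLE D)
    [Nonempty V] (hX : X.IsCosystolicExpander ε) {h : ℕ}
    (hh : Module.finrank (ZMod 2) (X.Cochain (e + 1) ⧸ X.topBoundaries e) = h)
    (hN : ∀ m ≤ e, (1 + D * 2 ^ (d + 1) * fillConst d D ε h m) * D < ε * X.facets.card)
    (hN₁ : (1 + D * 2 ^ (d + 1) * fillConst d D ε h e) * D < X.facets.card) : False := by
  classical
  obtain ⟨S, hS1, hS2⟩ := X.exists_fills hε hD hX he e (by rw [hh]; exact fun m hm => hN m hm.le)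
    0 (Nat.zero_add e)
  rw [hh] at hS1
  have hfix : ∀ σ, S (X.delta 0 (Pi.single σ 1)) = Pi.single σ 1 := by
    intro σ
    let z : X.Cochain 0 := S (X.delta 0 (Pi.single σ 1)) + Pi.single σ 1
    have hz : X.delta 0 z = 0 := by
      rw [← X.deltaL_apply, map_add, X.deltaL_apply, X.deltaL_apply, hS2]
      funext τ
      exact CharTwo.add_self_eq_zero _
    have hsz : (X.size 0 z : ℝ) ≤ 1 + D * 2 ^ (d + 1) * fillConst d D ε h e := by
      have h1 : (X.size 0 z : ℝ) ≤ X.size 0 (S (X.delta 0 (Pi.single σ 1))) +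
          X.size 0 (Pi.single σ 1) := by exact_mod_cast X.size_add_le _ _ _
      have h2 : (X.size 0 (Pi.single σ 1) : ℝ) ≤ 1 := by exact_mod_cast X.size_single_le _ σ
      have h3 : (X.size 0 (S (X.delta 0 (Pi.single σ 1))) : ℝ) ≤
          ∑ τ ∈ X.upper 0 σ, (X.size 0 (S (Pi.single τ 1)) : ℝ) := by
        rw [X.delta_single, map_sum]
        exact_mod_cast X.size_sum_le _ _ _
      have h4 := Finset.sum_le_card_nsmul (X.upper 0 σ) _ _ fun τ _ => hS1 τ
      rw [nsmul_eq_mul] at h4
      have h5 : ((X.upper 0 σ).card : ℝ) ≤ D * 2 ^ (d + 1) := by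
        exact_mod_cast X.card_upper_le hD 0 σ
      have h6 := mul_le_mul_of_nonneg_right h5 (fillConst_nonneg d D hε h e)
      linarith
    have hnorm : X.norm 0 z < ε := by
      have hpos : (0 : ℝ) < X.facets.card := by exact_mod_cast X.facets_pos
      refine ((X.norm_le hD 0 z).trans (mul_le_mul_of_nonneg_right hsz (by positivity))).trans_lt ?_
      rw [← mul_div_assoc, div_lt_iff₀ hpos]
      exact hN e le_rfl
    have hb : X.IsBoundary 0 z := by
      by_contra hc
      exact absurd (hX.2 0 (by omega) z hz hc) (not_le.2 hnorm)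
    obtain ⟨c, hc⟩ := hb
    have hc0 : c = 0 := by
      by_contra hne
      have hall : X.size 0 z = Fintype.card {σ // σ ∈ X.faces 0} := by
        simp [size, hc, hne, Finset.card_univ]
      have hv : Fintype.card {σ // σ ∈ X.faces 0} = (X.faces 0).card := Fintype.card_coe _
      have hfac : X.facets.card ≤ D * (X.faces 0).card := by
        have hsub : X.facets ⊆ (X.faces 0).biUnion fun σ => X.facets.filter (σ ⊆ ·) := by
          intro t ht
          obtain ⟨v, hv⟩ : t.Nonempty := Finset.card_pos.1 (by rw [X.card_facet t ht]; omega)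
          refine Finset.mem_biUnion.2 ⟨{v}, ?_, Finset.mem_filter.2 ⟨ht, by simpa using hv⟩⟩
          exact X.mem_faces.2 ⟨t, ht, by simpa using hv, by simp⟩
        refine (Finset.card_le_card hsub).trans (Finset.card_biUnion_le.trans ?_)
        refine (Finset.sum_le_card_nsmul _ _ D fun σ hσ => ?_).trans (by rw [smul_eq_mul, mul_comm])
        obtain ⟨v, rfl⟩ := Finset.card_eq_one.1 (X.card_eq_of_mem_faces ⟨σ, hσ⟩)
        simpa using hD v
      have h1 : (X.facets.card : ℝ) ≤ D * (X.size 0 z : ℝ) := by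
        rw [hall, hv]
        exact_mod_cast hfac
      have h3 := mul_le_mul_of_nonneg_left hsz (Nat.cast_nonneg D : (0 : ℝ) ≤ D)
      linarith
    funext τ
    have := hc τ
    rw [hc0] at this
    exact CharTwo.add_eq_zero.1 this
  have hone : (fun _ => 1 : X.Cochain 0) = 0 := by
    have h1 : ∑ σ, (Pi.single σ 1 : X.Cochain 0) = fun _ => 1 :=
      funext fun τ => by simp [Finset.sum_apply]
    rw [← h1, ← Finset.sum_congr rfl fun σ _ => hfix σ, ← map_sum]
    simp only [← X.deltaL_apply]
    rw [← map_sum, h1, X.deltaL_apply, X.delta_const, map_zero]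
  obtain ⟨v⟩ := ‹Nonempty V›
  obtain ⟨t, ht, hv⟩ := X.covered v
  exact one_ne_zero
    (congrFun hone ⟨{v}, X.mem_faces.2 ⟨t, ht, by simpa using hv, by simp⟩⟩)

/-- An explicit growth bound on the filling constants. -/
theorem fillConst_le (d D : ℕ) {ε : ℝ} (hε : 0 < ε) (h : ℕ) : ∀ j,
    fillConst d D ε h j ≤
      (2 ^ (d + 1) * D / ε * (1 + D * 2 ^ (d + 1)) + 1) ^ (j + 1) * (1 + h)
  | 0 => by
    have hC : (0 : ℝ) ≤ 2 ^ (d + 1) * D / ε := by positivity
    have hD' : (0 : ℝ) ≤ D * 2 ^ (d + 1) := by positivity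
    simp only [fillConst, zero_add, pow_one]
    refine mul_le_mul_of_nonneg_right ?_ (by positivity)
    have := mul_nonneg hC hD'
    linarith
  | j + 1 => by
    have hC : (0 : ℝ) ≤ 2 ^ (d + 1) * D / ε := by positivity
    have hD' : (0 : ℝ) ≤ D * 2 ^ (d + 1) := by positivity
    simp only [fillConst]
    set C : ℝ := 2 ^ (d + 1) * D / ε
    set E : ℝ := D * 2 ^ (d + 1)
    set A : ℝ := C * (1 + E) + 1
    have ih : fillConst d D ε h j ≤ A ^ (j + 1) * (1 + h) := fillConst_le d D hε h j
    have hA : 1 ≤ A := le_add_of_nonneg_left (mul_nonneg hC (by linarith))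
    have h1 : (1 : ℝ) ≤ A ^ (j + 1) * (1 + h) :=
      one_le_mul_of_one_le_of_one_le (one_le_pow₀ hA) (by simp)
    calc C * (1 + E * fillConst d D ε h j)
        ≤ C * ((1 + E) * (A ^ (j + 1) * (1 + h))) := by
          refine mul_le_mul_of_nonneg_left ?_ hC
          have := mul_le_mul_of_nonneg_left ih hD'
          linarith
      _ ≤ A * (A ^ (j + 1) * (1 + h)) := by
          rw [← mul_assoc]
          exact mul_le_mul_of_nonneg_right (le_add_of_nonneg_right zero_le_one) (by linarith)
      _ = A ^ (j + 1 + 1) * (1 + h) := by ring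

theorem topBetti_eq {e : ℕ} (X : PureComplex V (e + 1)) :
    X.topBetti = Module.finrank (ZMod 2) (X.Cochain (e + 1) ⧸ X.topBoundaries e) := by
  have h : Submodule.span (ZMod 2) {f | X.IsBoundary (e + 1) f} = X.topBoundaries e := by
    refine le_antisymm (Submodule.span_le.2 ?_) ?_
    · rintro f ⟨g, rfl⟩
      exact ⟨g, rfl⟩
    · rintro f ⟨g, rfl⟩
      exact Submodule.subset_span ⟨g, rfl⟩
  rw [topBetti, h]

end PureComplex

end Vale.Agent.P067
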