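import Vale.Agent.P067.Carriers
import Vale.Agent.P067.Complex

/-!
# Bounded-degree complexes with polylogarithmic coboundary expansion in every dimension
-/

open Finset

namespace Vale.Agent.P067.LampGrid

open Chains

variable {m M : ℕ}

lemma zmod2_add_self {ι : Type} (a : ι → ZMod 2) : a + a = 0 := by
  funext i
  exact CharTwo.add_self_eq_zero _

/-- Translation of the lamps. -/
def tr (a : Fin m → ZMod 2) (x : Pt m M) : Pt m M := (x.1 + a, x.2)

lemma tr_tr (a : Fin m → ZMod 2) (x : Pt m M) : tr a (tr a x) = x := by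
  simp [tr, add_assoc, zmod2_add_self]

lemma tr_inj (a : Fin m → ZMod 2) : Function.Injective (tr a : Pt m M → Pt m M) :=
  Function.LeftInverse.injective (tr_tr a)

/-- Translation of a set. -/
def trs (a : Fin m → ZMod 2) (σ : Finset (Pt m M)) : Finset (Pt m M) := σ.image (tr a)

lemma trs_trs (a : Fin m → ZMod 2) (σ : Finset (Pt m M)) : trs a (trs a σ) = σ := by
  rw [trs, trs, image_image]
  simp [Function.comp_def, tr_tr]

lemma card_trs (a : Fin m → ZMod 2) (σ : Finset (Pt m M)) : (trs a σ).card = σ.card :=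
  card_image_of_injective _ (tr_inj a)

lemma trs_erase (a : Fin m → ZMod 2) (σ : Finset (Pt m M)) (x : Pt m M) :
    trs a (σ.erase x) = (trs a σ).erase (tr a x) :=
  image_erase (tr_inj a) σ x

lemma face_trs {d : ℕ} {a : Fin m → ZMod 2} {σ : Finset (Pt m M)} (h : Face d σ) :
    Face d (trs a σ) := by
  have hv : Vary (trs a σ) = Vary σ := by
    ext j
    simp only [Vary, mem_filter, mem_univ, true_and, trs, mem_image]
    constructor
    · rintro ⟨_, ⟨x, hx, rfl⟩, _, ⟨y, hy, rfl⟩, h⟩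
      exact ⟨x, hx, y, hy, fun e => h (by simp [tr, e])⟩
    · rintro ⟨x, hx, y, hy, h⟩
      exact ⟨_, ⟨x, hx, rfl⟩, _, ⟨y, hy, rfl⟩, fun e => h (by simpa [tr] using e)⟩
  refine ⟨?_, by rw [hv]; exact h.2.1, ?_⟩
  · intro x hx y hy r
    simp only [trs, mem_image] at hx hy
    obtain ⟨x', hx', rfl⟩ := hx
    obtain ⟨y', hy', rfl⟩ := hy
    exact h.1 x' hx' y' hy' r
  · intro j hj
    obtain ⟨r, hr⟩ := h.2.2 j (hv ▸ hj)
    refine ⟨r, fun x hx => ?_⟩
    simp only [trs, mem_image] at hx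
    obtain ⟨x', hx', rfl⟩ := hx
    exact hr x' hx'

open Classical in
/-- The faces with `n` points. -/
noncomputable def facesCard (d n : ℕ) : Finset (Finset (Pt m M)) :=
  univ.filter fun σ => σ.card = n ∧ Face d σ

lemma mem_facesCard {d n : ℕ} {σ : Finset (Pt m M)} :
    σ ∈ facesCard d n ↔ σ.card = n ∧ Face d σ := by
  simp [facesCard]

open Classical in
/-- The points that may lie in a face with `v`. -/
noncomputable def nbhd (v : Pt m M) : Finset (Pt m M) :=
  (Fintype.piFinset fun l => if ∃ r, InBox l v r then univ else {v.1 l}) ×ˢ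
    (Fintype.piFinset fun r => univ.filter fun c : Fin (3 * m + 2) =>
      c.val ≤ (v.2 r).val + 1 ∧ (v.2 r).val ≤ c.val + 1)

lemma face_subset_nbhd {d : ℕ} {σ : Finset (Pt m M)} (h : Face d σ) {v : Pt m M} (hv : v ∈ σ) :
    σ ⊆ nbhd v := by
  classical
  intro y hy
  simp only [nbhd, mem_product, Fintype.mem_piFinset]
  refine ⟨fun l => ?_, fun r => mem_filter.2 ⟨mem_univ _, h.1 y hy v hv r, h.1 v hv y hy r⟩⟩
  split_ifs with hl
  · exact mem_univ _
  · rw [mem_singleton]
    by_contra hne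
    obtain ⟨r, hr⟩ := h.2.2 l (by
      simp only [Vary, mem_filter, mem_univ, true_and]
      exact ⟨y, hy, v, hv, hne⟩)
    exact hl ⟨r, hr v hv⟩

lemma card_nbhd (v : Pt m M) : (nbhd v).card ≤ 6 ^ M := by
  classical
  rw [nbhd, card_product, Fintype.card_piFinset, Fintype.card_piFinset,
    show (6:ℕ) ^ M = 2 ^ M * 3 ^ M by rw [← mul_pow]; norm_num]
  refine Nat.mul_le_mul ?_ ?_
  · set A : Finset (Fin m) := univ.filter fun l => ∃ r, InBox l v r with hA
    have hAc : A.card ≤ M := by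
      refine (card_le_card (t := (univ : Finset (Fin M)).biUnion fun r =>
        univ.filter fun l => InBox l v r) ?_).trans ((card_biUnion_le_card_mul _ _ 1 ?_).trans
          (by simp))
      · intro l hl
        simpa [hA] using hl
      · intro r _
        refine card_le_one.2 (fun p hp q hq => Fin.ext ?_)
        obtain ⟨hp1, hp2⟩ := (mem_filter.1 hp).2
        obtain ⟨hq1, hq2⟩ := (mem_filter.1 hq).2
        omega
    calc ∏ l, (if ∃ r, InBox l v r then (univ : Finset (ZMod 2)) else {v.1 l}).card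
        = ∏ l, (if l ∈ A then 2 else 1) := by
          refine prod_congr rfl (fun l _ => ?_)
          by_cases hl : ∃ r, InBox l v r <;> simp [hA, hl]
      _ = 2 ^ A.card := by rw [prod_ite_mem, univ_inter, prod_const]
      _ ≤ 2 ^ M := Nat.pow_le_pow_right (by norm_num) hAc
  · refine (prod_le_prod' (g := fun _ => 3) (fun r _ => ?_)).trans (by simp)
    refine (card_le_card_of_injOn (t := Finset.Icc ((v.2 r).val - 1) ((v.2 r).val + 1))
      (fun c => c.val) (fun c hc => ?_) Fin.val_injective.injOn).trans ?_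
    · simp only [coe_filter, mem_univ, true_and, Set.mem_ofPred_eq] at hc
      simp only [coe_Icc, Set.mem_Icc]
      omega
    · simp only [Nat.card_Icc]
      omega

open Classical in
lemma card_star (d n : ℕ) (v : Pt m M) :
    ((facesCard d n).filter fun σ => v ∈ σ).card ≤ 2 ^ 6 ^ M := by
  calc ((facesCard d n).filter fun σ => v ∈ σ).card ≤ (nbhd v).powerset.card := by
        refine card_le_card (fun σ hσ => ?_)
        rw [mem_filter, mem_facesCard] at hσ
        exact mem_powerset.2 (face_subset_nbhd hσ.1.2 hσ.2)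
    _ = 2 ^ (nbhd v).card := card_powerset _
    _ ≤ 2 ^ 6 ^ M := Nat.pow_le_pow_right (by norm_num) (card_nbhd v)

lemma card_facesCard (d n : ℕ) (hn : 1 ≤ n) :
    (facesCard (m := m) (M := M) d n).card ≤ 2 ^ m * (3 * m + 2) ^ M * 2 ^ 6 ^ M := by
  classical
  calc (facesCard (m := m) (M := M) d n).card
      ≤ ((univ : Finset (Pt m M)).biUnion fun v => (facesCard d n).filter fun σ => v ∈ σ).card := by
        refine card_le_card (fun σ hσ => ?_)
        obtain ⟨v, hv⟩ := card_pos.1 (show 0 < σ.card by rw [(mem_facesCard.1 hσ).1]; omega)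
        simp only [mem_biUnion, mem_filter]
        exact ⟨v, mem_univ v, hσ, hv⟩
    _ ≤ (univ : Finset (Pt m M)).card * 2 ^ 6 ^ M :=
        card_biUnion_le_card_mul _ _ _ (fun v _ => card_star d n v)
    _ = _ := by simp [Pt]

/-- The constant of the cofilling inequality. -/
def cofillConst (d m M : ℕ) : ℕ :=
  (3 * m + 2) ^ M * 2 ^ 6 ^ M *
    (((m + 1) * (2 ^ (d + 1) * (3 * m + 2) ^ M)) ^ (d + 1) * (d + 1))

open Classical in
/-- The cofilling inequality. -/
theorem cofill {d : ℕ} (hM : M = 3 * d) {n : ℕ} (h1 : 1 ≤ n) (hn : n ≤ d)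
    (f : Chain (Pt m M)) :
    ∃ g : Chain (Pt m M),
      ((facesCard d n).filter fun σ => f σ + cobd g σ ≠ 0).card ≤
        cofillConst d m M * ((facesCard d (n + 1)).filter fun τ => cobd f τ ≠ 0).card := by
  obtain ⟨P, hP⟩ := exists_cone (m := m) hM
  set S := (facesCard d (n + 1)).filter fun τ => cobd f τ ≠ 0 with hS
  set fa : (Fin m → ZMod 2) → Chain (Pt m M) := fun a σ => f (trs a σ) with hfa
  set g : (Fin m → ZMod 2) → Chain (Pt m M) := fun a ρ => pair (fa a) (P (trs a ρ)) with hg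
  have hcob : ∀ a τ, cobd (fa a) τ = cobd f (trs a τ) := by
    intro a τ
    simp only [cobd, hfa]
    rw [trs, sum_image (tr_inj a).injOn]
    exact sum_congr rfl (fun x _ => by rw [← trs, ← trs_erase])
  have hkey : ∀ a, ∀ σ ∈ facesCard d n,
      f σ + cobd (g a) σ = pair (cobd (fa a)) (P (trs a σ)) := by
    intro a σ hσ
    rw [mem_facesCard] at hσ
    obtain ⟨_, h2⟩ := hP (trs a σ) (by rw [card_trs]; omega) (face_trs hσ.2)
    have h := congrArg (pair (fa a)) h2
    rw [pair_add, pair_single, pair_bd, pair_sum] at h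
    have hfσ : fa a (trs a σ) = f σ := by simp [hfa, trs_trs]
    have hsum : cobd (g a) σ = ∑ x ∈ trs a σ, pair (fa a) (P ((trs a σ).erase x)) := by
      simp only [cobd, hg]
      rw [show trs a σ = σ.image (tr a) from rfl, sum_image (tr_inj a).injOn]
      exact sum_congr rfl (fun x _ => by rw [trs_erase]; rfl)
    rw [hfσ] at h
    rw [← h, hsum, add_assoc, CharTwo.add_self_eq_zero, add_zero]
  set B : (Fin m → ZMod 2) → Finset (Finset (Pt m M)) :=
    fun a => (facesCard d n).filter fun σ => f σ + cobd (g a) σ ≠ 0 with hB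
  have hBa : ∀ a, (B a).card ≤ ∑ σ ∈ facesCard d n,
      ∑ τ ∈ (carPts σ).powersetCard (n + 1), (if trs a τ ∈ S then 1 else 0) := by
    intro a
    calc (B a).card = ((B a).image (trs a)).card :=
          (card_image_of_injective _ (Function.LeftInverse.injective (trs_trs a))).symm
      _ ≤ ((facesCard d n).filter fun σ =>
            ∃ τ ∈ (carPts σ).powersetCard (n + 1), trs a τ ∈ S).card := by
          refine card_le_card (fun ρ hρ => ?_)
          obtain ⟨σ, hσ, rfl⟩ := mem_image.1 hρ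
          rw [hB, mem_filter] at hσ
          rw [hkey a σ hσ.1] at hσ
          obtain ⟨τ, _, hτ⟩ := exists_ne_zero_of_sum_ne_zero hσ.2
          obtain ⟨hc, hf⟩ := mem_facesCard.1 hσ.1
          have hf' := face_trs (a := a) hf
          have hcar := (hP (trs a σ) (by rw [card_trs]; omega) hf').1 τ (right_ne_zero_of_mul hτ)
          rw [card_trs, hc] at hcar
          simp only [mem_filter]
          refine ⟨mem_facesCard.2 ⟨by rw [card_trs, hc], hf'⟩, τ,
            mem_powersetCard.2 ⟨car_subset hcar.2, hcar.1⟩, ?_⟩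
          refine mem_filter.2 ⟨mem_facesCard.2 ⟨by rw [card_trs, hcar.1], face_trs (car_face hcar.2)⟩,
            ?_⟩
          rw [← hcob]
          exact left_ne_zero_of_mul hτ
      _ ≤ _ := by
          rw [card_filter]
          refine sum_le_sum (fun σ _ => ?_)
          split_ifs with h
          · obtain ⟨τ, hτ, hτS⟩ := h
            exact le_trans (by simp [hτS])
              (single_le_sum (f := fun τ => if trs a τ ∈ S then 1 else 0)
                (fun _ _ => Nat.zero_le _) hτ)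
          · exact Nat.zero_le _
  have hcount : ∀ τ : Finset (Pt m M), τ.card = n + 1 →
      (univ.filter fun a => trs a τ ∈ S).card ≤ S.card * (n + 1) := by
    intro τ hτ
    obtain ⟨x, hx⟩ := card_pos.1 (show 0 < τ.card by omega)
    refine (card_le_card (t := S.biUnion fun ρ => ρ.image fun y => x.1 + y.1) ?_).trans
      (card_biUnion_le_card_mul _ _ _ (fun ρ hρ => card_image_le.trans
        ((mem_facesCard.1 (mem_filter.1 hρ).1).1.le)))
    intro a ha
    simp only [mem_filter, mem_univ, true_and] at ha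
    simp only [mem_biUnion, mem_image]
    refine ⟨trs a τ, ha, tr a x, mem_image_of_mem _ hx, ?_⟩
    simp [tr, ← add_assoc, zmod2_add_self]
  set R := (m + 1) * (2 ^ (d + 1) * (3 * m + 2) ^ M) with hR
  have htot : ∑ a, (B a).card ≤ 2 ^ m * (cofillConst d m M * S.card) := by
    calc ∑ a, (B a).card
        ≤ ∑ a, ∑ σ ∈ facesCard d n, ∑ τ ∈ (carPts σ).powersetCard (n + 1),
            (if trs a τ ∈ S then 1 else 0) := sum_le_sum (fun a _ => hBa a)
      _ = ∑ σ ∈ facesCard d n, ∑ τ ∈ (carPts σ).powersetCard (n + 1),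
            (univ.filter fun a => trs a τ ∈ S).card := by
          rw [sum_comm]
          refine sum_congr rfl (fun σ _ => ?_)
          rw [sum_comm]
          exact sum_congr rfl (fun τ _ => (card_filter _ _).symm)
      _ ≤ ∑ σ ∈ facesCard (m := m) (M := M) d n, R ^ (d + 1) * (S.card * (d + 1)) := by
          refine sum_le_sum (fun σ hσ => ?_)
          refine (sum_le_card_nsmul _ _ (S.card * (n + 1))
            (fun τ hτ => hcount τ (mem_powersetCard.1 hτ).2)).trans ?_
          rw [smul_eq_mul, card_powersetCard]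
          refine Nat.mul_le_mul ?_ (Nat.mul_le_mul_left _ (by omega))
          calc (carPts σ).card.choose (n + 1) ≤ (carPts σ).card ^ (n + 1) := Nat.choose_le_pow _ _
            _ ≤ R ^ (n + 1) := Nat.pow_le_pow_left (card_carPts (mem_facesCard.1 hσ).2) _
            _ ≤ R ^ (d + 1) := Nat.pow_le_pow_right
                (Nat.one_le_iff_ne_zero.2 (by rw [hR]; positivity)) (by omega)
      _ ≤ 2 ^ m * (3 * m + 2) ^ M * 2 ^ 6 ^ M * (R ^ (d + 1) * (S.card * (d + 1))) := by
          rw [sum_const, smul_eq_mul]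
          exact Nat.mul_le_mul_right _ (card_facesCard d n h1)
      _ = _ := by
          rw [cofillConst]
          ring
  obtain ⟨a, -, ha⟩ := exists_le_of_sum_le (s := (univ : Finset (Fin m → ZMod 2)))
    (f := fun a => (B a).card) (g := fun _ => cofillConst d m M * S.card) univ_nonempty
    (by simpa using htot)
  exact ⟨g a, ha⟩

/-- Every nonempty face extends to a face with `d + 1` points. -/
lemma exists_facet {d : ℕ} (hM : d + 1 ≤ 2 ^ M) {σ : Finset (Pt m M)} (hne : σ.Nonempty)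
    (hc : σ.card ≤ d + 1) (hf : Face d σ) :
    ∃ τ, σ ⊆ τ ∧ τ.card = d + 1 ∧ Face d τ := by
  classical
  obtain ⟨x₀, hx₀⟩ := hne
  have hlo : ∀ r, ∃ lo : ℕ, lo + 1 ≤ 3 * m + 1 ∧
      (∀ x ∈ σ, lo ≤ (x.2 r).val ∧ (x.2 r).val ≤ lo + 1) ∧
      ∀ j : Fin m, (∀ x ∈ σ, InBox j x r) → lo = 3 * j.val := by
    intro r
    by_cases h : ∃ j : Fin m, ∀ x ∈ σ, InBox j x r
    · obtain ⟨j, hj⟩ := h
      refine ⟨3 * j.val, by omega, fun x hx => hj x hx, fun j' hj' => ?_⟩
      have h1 := hj x₀ hx₀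
      have h2 := hj' x₀ hx₀
      unfold InBox at h1 h2
      omega
    · obtain ⟨y, hy, hmin⟩ := exists_min_image σ (fun x => (x.2 r).val) ⟨x₀, hx₀⟩
      refine ⟨min (y.2 r).val (3 * m), by omega, fun x hx => ?_,
        fun j hj => absurd ⟨j, hj⟩ h⟩
      have := hmin x hx
      have := hf.1 x hx y hy r
      have := (x.2 r).isLt
      omega
  choose lo hlo1 hlo2 hlo3 using hlo
  set e : (Fin M → Fin 2) → Pt m M :=
    fun u => (x₀.1, fun r => ⟨lo r + (u r).val, by have := hlo1 r; have := (u r).isLt; omega⟩)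
    with he
  have einj : Function.Injective e := by
    intro u v h
    funext r
    have := congrArg (fun p : Pt m M => (p.2 r).val) h
    simp only [he] at this
    exact Fin.ext (by omega)
  set Tm : Finset (Pt m M) := σ ∪ univ.image e with hTm
  have hT : d + 1 ≤ Tm.card := by
    refine hM.trans (le_trans ?_ (card_le_card subset_union_right))
    rw [card_image_of_injective _ einj]
    simp
  have hin : ∀ x ∈ Tm, (∀ r, lo r ≤ (x.2 r).val ∧ (x.2 r).val ≤ lo r + 1) ∧
      ∃ y ∈ σ, x.1 = y.1 := by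
    intro x hx
    rcases mem_union.1 hx with hx | hx
    · exact ⟨fun r => hlo2 r x hx, x, hx, rfl⟩
    · obtain ⟨u, _, rfl⟩ := mem_image.1 hx
      refine ⟨fun r => ?_, x₀, hx₀, rfl⟩
      have := (u r).isLt
      simp only [he]
      omega
  have hTf : Face d Tm := by
    have hv : Vary Tm ⊆ Vary σ := by
      intro j hj
      simp only [Vary, mem_filter, mem_univ, true_and] at hj ⊢
      obtain ⟨x, hx, y, hy, hne⟩ := hj
      obtain ⟨-, x', hx', ex⟩ := hin x hx
      obtain ⟨-, y', hy', ey⟩ := hin y hy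
      exact ⟨x', hx', y', hy', by rwa [← ex, ← ey]⟩
    refine ⟨fun x hx y hy r => ?_, (card_le_card hv).trans hf.2.1, fun j hj => ?_⟩
    · have := (hin x hx).1 r
      have := (hin y hy).1 r
      omega
    · obtain ⟨r, hr⟩ := hf.2.2 j (hv hj)
      refine ⟨r, fun x hx => ?_⟩
      have h1 := (hin x hx).1 r
      rw [hlo3 r j hr] at h1
      exact h1
  obtain ⟨τ, h1, h2, h3⟩ := exists_subsuperset_card_eq (subset_union_left (s₂ := univ.image e)) hc hT
  exact ⟨τ, h1, h3, face_mono h2 hTf⟩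

lemma succ_le_two_pow (d : ℕ) : d + 1 ≤ 2 ^ (3 * d) :=
  (Nat.lt_two_pow_self (n := d)).trans_le (Nat.pow_le_pow_right (by norm_num) (by omega))

/-- The lamp-grid complex of dimension `d` with `m` lamps. -/
noncomputable def cplx (d m : ℕ) : PureComplex (Pt m (3 * d)) d where
  facets := facesCard d (d + 1)
  card_facet t ht := (mem_facesCard.1 ht).1
  covered v := by
    obtain ⟨τ, h1, h2, h3⟩ := exists_facet (succ_le_two_pow d) (singleton_nonempty v) (by simp)
      (face_singleton d v)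
    exact ⟨τ, mem_facesCard.2 ⟨h2, h3⟩, h1 (mem_singleton_self v)⟩

lemma cplx_faces {d m i : ℕ} (hi : i ≤ d) : (cplx d m).faces i = facesCard d (i + 1) := by
  ext σ
  simp only [PureComplex.faces, cplx, mem_biUnion, mem_powersetCard, mem_facesCard]
  constructor
  · rintro ⟨τ, ⟨_, hτ⟩, hsub, hc⟩
    exact ⟨hc, face_mono hsub hτ⟩
  · rintro ⟨hc, hf⟩
    obtain ⟨τ, h1, h2, h3⟩ := exists_facet (succ_le_two_pow d) (card_pos.1 (by omega : 0 < σ.card))
      (by omega) hf
    exact ⟨τ, ⟨h2, h3⟩, h1, hc⟩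

lemma degreeLE_cplx (d m : ℕ) : (cplx d m).DegreeLE (2 ^ 6 ^ (3 * d)) := by
  intro v
  classical
  convert card_star (m := m) (M := 3 * d) d (d + 1) v using 2
  ext σ
  simp [cplx]

section Transfer

set_option linter.unusedSectionVars false

variable {V : Type} [Fintype V] [DecidableEq V] {d : ℕ} (X : PureComplex V d)

lemma mem_faces_erase {i : ℕ} {τ : Finset V} (hτ : τ ∈ X.faces (i + 1)) {x : V} (hx : x ∈ τ) :
    τ.erase x ∈ X.faces i := by
  simp only [PureComplex.faces, mem_biUnion, mem_powersetCard] at hτ ⊢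
  obtain ⟨t, ht, hsub, hc⟩ := hτ
  exact ⟨t, ht, (erase_subset x τ).trans hsub, by rw [card_erase_of_mem hx, hc]; omega⟩

lemma delta_restrict (i : ℕ) (G : Finset V → ZMod 2) (τ : {τ // τ ∈ X.faces (i + 1)}) :
    X.delta i (fun σ => G σ.1) τ = cobd G τ.1 := by
  simp only [PureComplex.delta, cobd]
  rw [sum_coe_sort (X.faces i) (fun σ => if σ ⊆ τ.1 then G σ else 0), ← sum_filter]
  have hc : τ.1.card = i + 2 := by
    have := τ.2
    simp only [PureComplex.faces, mem_biUnion, mem_powersetCard] at this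
    obtain ⟨_, _, _, hc⟩ := this
    exact hc
  have hset : (X.faces i).filter (fun σ => σ ⊆ τ.1) = τ.1.image (fun x => τ.1.erase x) := by
    ext σ
    simp only [mem_filter, mem_image]
    constructor
    · rintro ⟨hσ, hsub⟩
      simp only [PureComplex.faces, mem_biUnion, mem_powersetCard] at hσ
      obtain ⟨_, _, _, hσc⟩ := hσ
      obtain ⟨x, hx, hxσ⟩ := exists_mem_notMem_of_card_lt_card (show σ.card < τ.1.card by omega)
      refine ⟨x, hx, (eq_of_subset_of_card_le (fun y hy => mem_erase.2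
        ⟨fun h => hxσ (by rwa [← h]), hsub hy⟩) ?_).symm⟩
      rw [card_erase_of_mem hx]
      omega
    · rintro ⟨x, hx, rfl⟩
      exact ⟨mem_faces_erase X τ.2 hx, erase_subset x _⟩
  rw [hset, sum_image (Finset.erase_injOn τ.1)]

lemma weight_le {D : ℕ} (hX : X.DegreeLE D) (i : ℕ) (hi : i ≤ d)
    (σ : {σ // σ ∈ X.faces i}) : X.weight i σ ≤ (D : ℝ) / X.facets.card := by
  have hσ := σ.2
  simp only [PureComplex.faces, mem_biUnion, mem_powersetCard] at hσ
  obtain ⟨t, ht, hsub, hc⟩ := hσ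
  obtain ⟨v, hv⟩ := card_pos.1 (by omega : 0 < σ.1.card)
  have h1 : (X.facets.filter fun t => σ.1 ⊆ t).card ≤ D :=
    (card_le_card (monotone_filter_right _ fun t _ h => h hv)).trans (hX v)
  have h2 : (1:ℝ) ≤ ((d + 1).choose (i + 1) : ℝ) := by
    exact_mod_cast Nat.choose_pos (by omega : i + 1 ≤ d + 1)
  have h3 : (0:ℝ) < X.facets.card := by
    exact_mod_cast card_pos.2 ⟨t, ht⟩
  rw [PureComplex.weight]
  have h4 : ((X.facets.filter fun t => σ.1 ⊆ t).card : ℝ) ≤ D := by exact_mod_cast h1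
  exact div_le_div₀ (Nat.cast_nonneg D) h4 h3 (le_mul_of_one_le_left h3.le h2)

lemma le_weight (i : ℕ) (hi : i ≤ d) (σ : {σ // σ ∈ X.faces i}) :
    1 / ((2:ℝ) ^ (d + 1) * X.facets.card) ≤ X.weight i σ := by
  have hσ := σ.2
  simp only [PureComplex.faces, mem_biUnion, mem_powersetCard] at hσ
  obtain ⟨t, ht, hsub, hc⟩ := hσ
  have h1 : (1:ℝ) ≤ (X.facets.filter fun t => σ.1 ⊆ t).card := by
    exact_mod_cast card_pos.2 ⟨t, mem_filter.2 ⟨ht, hsub⟩⟩
  have h2 : ((d + 1).choose (i + 1) : ℝ) ≤ (2:ℝ) ^ (d + 1) := by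
    exact_mod_cast Nat.choose_le_two_pow (d + 1) (i + 1)
  have h2' : (0:ℝ) < ((d + 1).choose (i + 1) : ℝ) := by
    exact_mod_cast Nat.choose_pos (by omega : i + 1 ≤ d + 1)
  have h3 : (0:ℝ) < X.facets.card := by
    exact_mod_cast card_pos.2 ⟨t, ht⟩
  rw [PureComplex.weight]
  exact div_le_div₀ (Nat.cast_nonneg _) h1 (by positivity) (mul_le_mul_of_nonneg_right h2 h3.le)

lemma norm_le {D : ℕ} (hX : X.DegreeLE D) (i : ℕ) (hi : i ≤ d) (f : X.Cochain i) :
    X.norm i f ≤ (univ.filter fun σ => f σ ≠ 0).card * ((D : ℝ) / X.facets.card) := by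
  rw [PureComplex.norm, card_filter, Nat.cast_sum, sum_mul]
  refine sum_le_sum (fun σ _ => ?_)
  by_cases h : f σ = 0
  · simp [h]
  · simpa [h] using weight_le X hX i hi σ

lemma le_norm (i : ℕ) (hi : i ≤ d) (f : X.Cochain i) :
    (univ.filter fun σ => f σ ≠ 0).card * (1 / ((2:ℝ) ^ (d + 1) * X.facets.card)) ≤ X.norm i f := by
  rw [PureComplex.norm, card_filter, Nat.cast_sum, sum_mul]
  refine sum_le_sum (fun σ _ => ?_)
  by_cases h : f σ = 0
  · simp [h]
  · simpa [h] using le_weight X i hi σ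

lemma card_filter_subtype (s : Finset (Finset V)) (p : Finset V → Prop) [DecidablePred p] :
    (univ.filter fun σ : {σ // σ ∈ s} => p σ.1).card = (s.filter p).card := by
  refine card_bij (fun σ _ => σ.1) (fun σ hσ => ?_) (fun _ _ _ _ h => Subtype.ext h)
    (fun σ hσ => ?_)
  · simp only [mem_filter, mem_univ, true_and] at hσ
    exact mem_filter.2 ⟨σ.2, hσ⟩
  · obtain ⟨h1, h2⟩ := mem_filter.1 hσ
    exact ⟨⟨σ, h1⟩, by simpa using h2, rfl⟩

end Transfer

lemma chain_of_bounds {ε K D P Fc b s l r : ℝ} (hε : 0 ≤ ε) (hD : 0 ≤ D) (hP : 0 < P)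
    (hFc : 0 < Fc) (hs : 0 ≤ s) (h : ε * (K * D * P) ≤ 1) (hbs : b ≤ K * s)
    (hl : l ≤ b * (D / Fc)) (hr : s * (1 / (P * Fc)) ≤ r) : ε * l ≤ r := by
  calc ε * l ≤ ε * (b * (D / Fc)) := mul_le_mul_of_nonneg_left hl hε
    _ ≤ ε * ((K * s) * (D / Fc)) :=
        mul_le_mul_of_nonneg_left (mul_le_mul_of_nonneg_right hbs (div_nonneg hD hFc.le)) hε
    _ = (ε * (K * D * P)) * (s * (1 / (P * Fc))) := by field_simp
    _ ≤ 1 * (s * (1 / (P * Fc))) := mul_le_mul_of_nonneg_right h (by positivity)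
    _ ≤ r := by rw [one_mul]; exact hr

/-- Expansion with the constant read off from the cofilling inequality. -/
lemma expander_cplx (d m D : ℕ) (hdeg : (cplx d m).DegreeLE D) {ε : ℝ} (hε : 0 ≤ ε)
    (h : ε * ((cofillConst d m (3 * d) : ℝ) * (D : ℝ) * 2 ^ (d + 1)) ≤ 1) :
    (cplx d m).IsCoboundaryExpander ε := by
  classical
  set X := cplx d m with hX
  intro i hi f
  have hfaces : ∀ j ≤ d, X.faces j = facesCard d (j + 1) := fun j hj => cplx_faces hj
  set F : Chain (Pt m (3 * d)) := fun σ => if hσ : σ ∈ X.faces i then f ⟨σ, hσ⟩ else 0 with hF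
  have hfF : f = fun σ => F σ.1 := by
    funext σ
    simp [hF, σ.2]
  obtain ⟨g, hg⟩ := cofill rfl (show 1 ≤ i + 1 by omega) (show i + 1 ≤ d by omega) F
  refine ⟨fun σ => cobd g σ.1, ?_, ?_⟩
  · cases i with
    | zero =>
      refine ⟨g ∅, fun σ => ?_⟩
      have hσ := (Finset.ext_iff.1 (hfaces 0 (by omega)) σ.1).1 σ.2
      have hc : σ.1.card = 1 := (mem_facesCard.1 hσ).1
      obtain ⟨x, hx⟩ := card_eq_one.1 hc
      simp [cobd, hx]
    | succ k => exact ⟨fun σ => g σ.1, funext fun σ => delta_restrict X k g σ⟩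
  · have hnum := norm_le X hdeg i (by omega) (f - fun σ => cobd g σ.1)
    have hden := le_norm X (i + 1) (by omega) (X.delta i f)
    have e1 : (univ.filter fun σ => (f - fun σ => cobd g σ.1 : X.Cochain i) σ ≠ 0).card
        = ((facesCard d (i + 1)).filter fun σ => F σ + cobd g σ ≠ 0).card := by
      rw [← hfaces i (by omega), ← card_filter_subtype (X.faces i) (fun σ => F σ + cobd g σ ≠ 0)]
      congr 1
      refine filter_congr (fun σ _ => ?_)
      rw [Pi.sub_apply, CharTwo.sub_eq_add, congrFun hfF σ]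
    have e2 : (univ.filter fun τ => X.delta i f τ ≠ 0).card
        = ((facesCard d (i + 1 + 1)).filter fun τ => cobd F τ ≠ 0).card := by
      rw [← hfaces (i + 1) (by omega), ← card_filter_subtype (X.faces (i + 1))
        (fun τ => cobd F τ ≠ 0)]
      congr 1
      refine filter_congr (fun τ _ => ?_)
      conv_lhs => rw [hfF, delta_restrict]
    rw [e1] at hnum
    rw [e2] at hden
    set b : ℝ := (((facesCard d (i + 1)).filter fun σ => F σ + cobd g σ ≠ 0).card : ℝ) with hb
    set s : ℝ := (((facesCard d (i + 1 + 1)).filter fun τ => cobd F τ ≠ 0).card : ℝ) with hs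
    have hbs : b ≤ (cofillConst d m (3 * d) : ℝ) * s := by
      simp only [hb, hs]
      exact_mod_cast hg
    have hFc : (0:ℝ) < X.facets.card := by
      obtain ⟨t, ht, -⟩ := X.covered origin
      exact Nat.cast_pos.2 (card_pos.2 ⟨t, ht⟩)
    exact chain_of_bounds (K := (cofillConst d m (3 * d) : ℝ)) (D := (D : ℝ))
      (P := (2:ℝ) ^ (d + 1)) (Fc := (X.facets.card : ℝ)) (b := b) (s := s) hε (Nat.cast_nonneg _)
      (by positivity) hFc (Nat.cast_nonneg _) h hbs hnum hden

/-- In every dimension there are bounded-degree complexes with polylogarithmic expansion. -/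
theorem exists_polylog_expanders (d : ℕ) (hd : 1 ≤ d) :
    ∃ (D C : ℕ) (c : ℝ), 0 < c ∧ ∀ N : ℕ,
      ∃ (V : Type) (_ : Fintype V) (_ : DecidableEq V) (X : PureComplex V d),
        N ≤ Fintype.card V ∧ X.DegreeLE D ∧
          X.IsCoboundaryExpander (c / Real.log (Fintype.card V) ^ C) ∧
          ∀ f : X.Cochain 0, X.delta 0 f = 0 → X.IsBoundary 0 f := by
  set M := 3 * d with hM
  set E := M + (M + 1) * (d + 1) with hE
  set K0 : ℝ := ((2 ^ 6 ^ M * ((2 ^ (d + 1)) ^ (d + 1) * (d + 1)) * 2 ^ 6 ^ M * 2 ^ (d + 1) : ℕ) : ℝ)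
    with hK0
  have hK0pos : 0 < K0 := by rw [hK0]; exact_mod_cast (by positivity : 0 < _)
  refine ⟨2 ^ 6 ^ M, E, (Real.log 2 / 5) ^ E / K0, ?_, fun N => ?_⟩
  · have := Real.log_pos (show (1:ℝ) < 2 by norm_num)
    positivity
  set m := N + 1 with hm
  have hcard : Fintype.card (Pt m M) = 2 ^ m * (3 * m + 2) ^ M := by simp [Pt]
  have hN : N ≤ Fintype.card (Pt m M) := by
    rw [hcard]
    calc N ≤ 2 ^ m := le_of_lt (lt_trans (by omega : N < m) Nat.lt_two_pow_self)
      _ ≤ _ := Nat.le_mul_of_pos_right _ (by positivity)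
  have hlog : (m : ℝ) * Real.log 2 ≤ Real.log (Fintype.card (Pt m M)) := by
    rw [← Real.log_pow]
    refine Real.log_le_log (by positivity) ?_
    rw [hcard]
    exact_mod_cast Nat.le_mul_of_pos_right _ (show 0 < (3 * m + 2) ^ M by positivity)
  have hl2 := Real.log_pos (show (1:ℝ) < 2 by norm_num)
  have hm1 : (1:ℝ) ≤ m := by rw [hm]; push_cast; linarith [Nat.cast_nonneg (α := ℝ) N]
  have hlogpos : 0 < Real.log (Fintype.card (Pt m M)) := lt_of_lt_of_le (by positivity) hlog
  set ε : ℝ := (Real.log 2 / 5) ^ E / K0 / Real.log (Fintype.card (Pt m M)) ^ E with hε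
  have hε0 : 0 < ε := by positivity
  have hexp : (cplx d m).IsCoboundaryExpander ε := by
    refine expander_cplx d m _ (degreeLE_cplx d m) hε0.le ?_
    have hconst : (cofillConst d m M : ℝ) * (2 ^ 6 ^ M : ℕ) * 2 ^ (d + 1) ≤ K0 * (5 * (m:ℝ)) ^ E := by
      have h1 : cofillConst d m M * 2 ^ 6 ^ M * 2 ^ (d + 1) ≤
          2 ^ 6 ^ M * ((2 ^ (d + 1)) ^ (d + 1) * (d + 1)) * 2 ^ 6 ^ M * 2 ^ (d + 1)
            * (5 * m) ^ E := by
        have hL : 3 * m + 2 ≤ 5 * m := by omega
        calc cofillConst d m M * 2 ^ 6 ^ M * 2 ^ (d + 1)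
            ≤ (5 * m) ^ M * 2 ^ 6 ^ M *
                (((5 * m) * (2 ^ (d + 1) * (5 * m) ^ M)) ^ (d + 1) * (d + 1))
              * 2 ^ 6 ^ M * 2 ^ (d + 1) := by
              rw [cofillConst]
              gcongr
              omega
          _ = _ := by
              simp only [hE, mul_pow, pow_add, pow_mul]
              ring
      rw [hK0]
      exact_mod_cast h1
    calc ε * ((cofillConst d m M : ℝ) * (2 ^ 6 ^ M : ℕ) * 2 ^ (d + 1))
        ≤ ε * (K0 * (5 * (m:ℝ)) ^ E) := mul_le_mul_of_nonneg_left hconst hε0.le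
      _ = ((m:ℝ) * Real.log 2 / Real.log (Fintype.card (Pt m M))) ^ E := by
          simp only [hε, div_pow, mul_pow]
          field_simp
      _ ≤ 1 := pow_le_one₀ (div_nonneg (by positivity) hlogpos.le) ((div_le_one hlogpos).2 hlog)
  refine ⟨Pt m M, inferInstance, inferInstance, cplx d m, hN, degreeLE_cplx d m, hexp, ?_⟩
  intro f hf
  obtain ⟨b, hb, hle⟩ := hexp 0 hd f
  have h0 : (cplx d m).norm 1 ((cplx d m).delta 0 f) = 0 := by
    rw [hf]
    simp [PureComplex.norm]
  rw [h0] at hle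
  have h1 : (cplx d m).norm 0 (f - b) ≤ 0 := nonpos_of_mul_nonpos_right hle hε0
  have h2 := le_norm (cplx d m) 0 (Nat.zero_le d) (f - b)
  have hFc : (0:ℝ) < ((cplx d m).facets.card : ℝ) := by
    obtain ⟨t, ht, -⟩ := (cplx d m).covered origin
    exact_mod_cast card_pos.2 ⟨t, ht⟩
  have h3 : ((univ.filter fun σ => (f - b) σ ≠ 0).card : ℝ) ≤ 0 :=
    nonpos_of_mul_nonpos_left (h2.trans h1) (by positivity)
  have h4 : (univ.filter fun σ => (f - b) σ ≠ 0).card = 0 := by
    exact_mod_cast le_antisymm h3 (Nat.cast_nonneg _)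
  obtain ⟨c, hc⟩ := hb
  refine ⟨c, fun σ => ?_⟩
  have := (Finset.card_eq_zero.1 h4)
  rw [filter_eq_empty_iff] at this
  have h5 := not_not.1 (this (mem_univ σ))
  rw [Pi.sub_apply, sub_eq_zero] at h5
  rw [h5, hc σ]

end Vale.Agent.P067.LampGrid
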